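import Vale.Agent.P237.Zono

/-!
The volume of the projection body bounded below by the volumes of its shadows, through zonotopes.
-/

open MeasureTheory Set Filter Topology Real
open scoped RealInnerProductSpace Pointwise ENNReal NNReal

namespace Vale.Agent.P237

variable {n m : ℕ}

lemma Frame.inner_hyper {ν : E (n + 1)} (F : Frame ν) (x : E (n + 1)) (z : E n) :
    ⟪x, F.S (0, z)⟫ = ⟪F.proj x, z⟫ := by
  have h := F.inn (F.S.symm x).1 (F.proj x) 0 z
  simp only [Frame.proj, Prod.mk.eta, F.S.apply_symm_apply, mul_zero, zero_add] at h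
  exact h

lemma sublin_projVol {K : Set (E (n + 1))} (hK : Body K) (hi : (interior K).Nonempty) :
    Sublin (projVol K) := by
  obtain ⟨a, ha⟩ := exists_cen hK hi
  refine ⟨fun u v => ?_, fun c hc u => by rw [projVol_smul, abs_of_pos hc], projVol_lower hK hi,
    projVol_bound hK⟩
  simp only [← projVol_vadd hK a]
  exact projVol_add_le ha u v

lemma sublin_hyper {K : Set (E (n + 1))} (hK : Body K) (hi : (interior K).Nonempty) {ν : E (n + 1)}
    (F : Frame ν) : Sublin fun v : E n => projVol K (F.S (0, v)) := by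
  have h := sublin_projVol hK hi
  refine ⟨fun u v => ?_, fun c hc u => ?_, ?_, ?_⟩
  · have : F.S (0, u + v) = F.S (0, u) + F.S (0, v) := by rw [← map_add]; simp
    rw [this]; exact h.add _ _
  · have : F.S (0, c • u) = c • F.S (0, u) := by rw [← map_smul]; simp
    rw [this]; exact h.smul c hc _
  · obtain ⟨c, hc, hlo⟩ := h.lower
    exact ⟨c, hc, fun u => by simpa [F.norm_hyper] using hlo (F.S (0, u))⟩
  · obtain ⟨B, hB, hup⟩ := h.upper
    exact ⟨B, hB, fun u => by simpa [F.norm_hyper] using hup (F.S (0, u))⟩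

/-- Splitting `J` over small pieces. -/
lemma exists_pieces {K : Set (E (n + 1))} (hK : Cen K) {ε : ℝ} (hε : 0 < ε) :
    ∃ (k : ℕ) (v : Fin k → E (n + 1)),
      (∀ (f : E (n + 1) → ℝ) (L : ℝ≥0), LipschitzWith L f →
        (∀ c : ℝ, 0 ≤ c → ∀ x, f (c • x) = c * f x) →
          |∑ i, f (v i) - J K f| ≤ 2 * L * ε * J K (fun _ => 1)) ∧
      ∀ u, ∑ i, |⟪v i, u⟫| ≤ J K (fun w => |⟪w, u⟫|) := by
  classical
  obtain ⟨C, hC0, hC⟩ := hK.exists_bound
  obtain ⟨t, -, htf, htc⟩ := Metric.totallyBounded_iff.1
    (isCompact_closedBall (0 : E (n + 1)) C).totallyBounded ε hε |> fun ⟨t, ht, hc⟩ =>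
      (⟨t, trivial, ht, hc⟩ : ∃ t : Set (E (n + 1)), True ∧ t.Finite ∧
        Metric.closedBall 0 C ⊆ ⋃ y ∈ t, Metric.ball y ε)
  have := htf.fintype
  set k := Fintype.card t
  set c : Fin k → E (n + 1) := fun i => ((Fintype.equivFin t).symm i : E (n + 1))
  set cell : Fin k → Set (E (n + 1)) := disjointed fun i => Metric.ball (c i) ε
  set P : Fin k → Set (E (n + 1)) := fun i => gr K ⁻¹' cell i with hPdef
  have hPm : ∀ i, MeasurableSet (P i) := fun i =>
    (disjointedRec (fun {_ j} ht => ht.diff Metric.isOpen_ball.measurableSet)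
      Metric.isOpen_ball.measurableSet : MeasurableSet (cell i)).preimage (measurable_gr K)
  have hPd : Pairwise (Function.onFun Disjoint P) := fun i j hij =>
    (disjoint_disjointed (fun i => Metric.ball (c i) ε) hij).preimage _
  have hPu : ⋃ i, P i = univ := by
    rw [hPdef, ← preimage_iUnion, iUnion_disjointed, eq_univ_iff_forall]
    intro x
    obtain ⟨y, hy, hxy⟩ := mem_iUnion₂.1 (htc (mem_closedBall_zero_iff.2 (hC x)))
    refine mem_iUnion.2 ⟨Fintype.equivFin t ⟨y, hy⟩, ?_⟩
    simpa [c] using hxy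
  have hclose : ∀ i, ∀ x ∈ P i, ‖gr K x - c i‖ ≤ ε := fun i x hx => by
    have := disjointed_subset (fun i => Metric.ball (c i) ε) i hx
    rw [Metric.mem_ball, dist_eq_norm] at this
    exact this.le
  set w : E (n + 1) → ℝ := fun x => exp (-gauge K x) / n.factorial with hw
  have hw0 : ∀ x, 0 ≤ w x := fun x => div_nonneg (exp_pos _).le (by positivity)
  have hwi : Integrable w := hK.integrable_exp.div_const _
  have hgi : Integrable fun x => w x • gr K x := by
    refine (hwi.norm.mul_const C).mono' (hwi.aestronglyMeasurable.smul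
      (measurable_gr K).aestronglyMeasurable) (Eventually.of_forall fun x => ?_)
    rw [norm_smul]
    exact mul_le_mul_of_nonneg_left (hC x) (norm_nonneg _)
  have hJ : ∀ {f : E (n + 1) → ℝ}, Continuous f → Integrable (fun x => w x * f (gr K x)) ∧
      J K f = ∑ i, ∫ x in P i, w x * f (gr K x) := by
    intro f hf
    have hi : Integrable fun x => w x * f (gr K x) := by
      simpa [hw, div_mul_eq_mul_div] using (hK.integrable_comp hf).div_const (n.factorial : ℝ)
    refine ⟨hi, ?_⟩
    rw [← integral_iUnion_fintype hPm hPd fun i => hi.integrableOn, hPu, setIntegral_univ, J,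
      ← integral_div]
    simp [hw, div_mul_eq_mul_div]
  refine ⟨k, fun i => ∫ x in P i, w x • gr K x, fun f L hf hh => ?_, fun u => ?_⟩
  · obtain ⟨hfi, hJf⟩ := hJ hf.continuous
    obtain ⟨-, hJ1⟩ := hJ (f := fun _ => 1) continuous_const
    rw [hJf, hJ1, ← Finset.sum_sub_distrib, Finset.mul_sum]
    refine (Finset.abs_sum_le_sum_abs _ _).trans (Finset.sum_le_sum fun i _ => ?_)
    simp only [mul_one]
    set μ := ∫ x in P i, w x with hμ
    have hμ0 : 0 ≤ μ := setIntegral_nonneg (hPm i) fun x _ => hw0 x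
    have h1 : ‖(∫ x in P i, w x • gr K x) - μ • c i‖ ≤ ε * μ := by
      rw [hμ, ← integral_smul_const, ← integral_sub hgi.integrableOn (hwi.smul_const _).integrableOn,
        mul_comm, ← integral_mul_const]
      refine norm_integral_le_of_norm_le ((hwi.mul_const ε).integrableOn) ?_
      refine (ae_restrict_iff' (hPm i)).2 (Eventually.of_forall fun x hx => ?_)
      rw [← smul_sub, norm_smul, Real.norm_of_nonneg (hw0 x)]
      exact mul_le_mul_of_nonneg_left (hclose i x hx) (hw0 x)
    have h2 : |f (∫ x in P i, w x • gr K x) - μ * f (c i)| ≤ L * (ε * μ) := by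
      rw [← hh μ hμ0, ← Real.norm_eq_abs]
      exact (hf.norm_sub_le _ _).trans (mul_le_mul_of_nonneg_left h1 L.coe_nonneg)
    have h3 : |μ * f (c i) - ∫ x in P i, w x * f (gr K x)| ≤ L * (ε * μ) := by
      rw [hμ, ← integral_mul_const, ← integral_sub (hwi.mul_const _).integrableOn hfi.integrableOn,
        ← Real.norm_eq_abs, ← mul_assoc, mul_comm, ← integral_mul_const]
      refine norm_integral_le_of_norm_le ((hwi.mul_const _).integrableOn) ?_
      refine (ae_restrict_iff' (hPm i)).2 (Eventually.of_forall fun x hx => ?_)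
      rw [← mul_sub, norm_mul, Real.norm_of_nonneg (hw0 x)]
      refine mul_le_mul_of_nonneg_left ((hf.norm_sub_le _ _).trans ?_) (hw0 x)
      rw [norm_sub_rev]
      exact mul_le_mul_of_nonneg_left (hclose i x hx) L.coe_nonneg
    exact (abs_sub_le _ (μ * f (c i)) _).trans (le_trans (add_le_add h2 h3) (le_of_eq (by ring)))
  · obtain ⟨hfi, hJf⟩ := hJ (f := fun w => |⟪w, u⟫|) (by fun_prop)
    rw [hJf]
    refine Finset.sum_le_sum fun i _ => ?_
    rw [real_inner_comm, ← integral_inner hgi.integrableOn]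
    refine abs_integral_le_integral_abs.trans (le_of_eq (integral_congr_ae
      (Eventually.of_forall fun x => ?_)))
    show |⟪u, w x • gr K x⟫| = w x * |⟪gr K x, u⟫|
    rw [inner_smul_right, abs_mul, abs_of_nonneg (hw0 x), real_inner_comm]

/-- The projection body is at least as large as the average of its shadows allows. -/
theorem step {K : Set (E (m + 2))} (hK : Cen K) {H : E (m + 2) → ℝ} {L : ℝ≥0}
    (hH : LipschitzWith L H) (hHs : ∀ c : ℝ, 0 ≤ c → ∀ x, H (c • x) = c * H x)
    (hW : ∀ v : E (m + 2), v ≠ 0 → ∀ F : Frame (‖v‖⁻¹ • v),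
      H v ≤ ‖v‖ * (volume (wulff fun y : E (m + 1) => projVol K (F.S (0, y)))).toReal) :
    J K H ≤ (m + 2 : ℝ) * (volume (projBody K)).toReal := by
  set VP := (volume (projBody K)).toReal with hVP
  have hi : (interior K).Nonempty := ⟨0, hK.int⟩
  have hsub := sublin_projVol hK.toBody hi
  have hPB : IsCompact (projBody K) := hsub.cen.cpt
  obtain ⟨c₀, hc₀, hlow⟩ := hsub.lower
  set T := J K (fun _ => (1 : ℝ)) with hT
  have hT0 : 0 ≤ T := by rw [hT, J_const hK, mul_one]; positivity
  have key : ∀ δ : ℝ, 0 < δ → δ < 1 →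
      (1 - δ) ^ (m + 1) * (J K H - 2 * L * δ) ≤ (m + 2 : ℝ) * VP := by
    intro δ hδ hδ1
    set ε := δ * min c₀ 1 / (T + 1) with hε
    have hε0 : 0 < ε := by positivity
    have hεT : ε * T ≤ δ * min c₀ 1 := by
      rw [hε, div_mul_eq_mul_div, div_le_iff₀ (by positivity)]
      exact mul_le_mul_of_nonneg_left (by linarith) (by positivity)
    obtain ⟨k, v, happ, hle⟩ := exists_pieces hK hε0
    set a : E (m + 2) := -((1 / 2 : ℝ) • ∑ i, v i) with ha
    have hZ : ∀ z ∈ a +ᵥ zono v 1, z ∈ projBody K := by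
      rintro _ ⟨_, ⟨e, he, rfl⟩, rfl⟩ u
      have h2 := hle u
      rw [J_abs hK] at h2
      have : a + ∑ i, e i • v i = ∑ i, (e i - 1 / 2) • v i := by
        simp only [ha, sub_smul, Finset.sum_sub_distrib, ← Finset.smul_sum]; abel
      show ⟪a + ∑ i, e i • v i, u⟫ ≤ _
      rw [this, sum_inner]
      calc ∑ i, ⟪(e i - 1 / 2) • v i, u⟫ ≤ ∑ i, 1 / 2 * |⟪v i, u⟫| := by
            refine Finset.sum_le_sum fun i _ => ?_
            rw [real_inner_smul_left]
            refine (le_abs_self _).trans ?_
            rw [abs_mul]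
            refine mul_le_mul_of_nonneg_right (abs_le.2 ⟨?_, ?_⟩) (abs_nonneg _)
            · linarith [he.1 i, show (0 : Fin k → ℝ) i = 0 from rfl]
            · linarith [he.2 i, show (1 : Fin k → ℝ) i = 1 from rfl]
        _ ≤ _ := by rw [← Finset.mul_sum]; linarith
    have hvol : (volume (zono v 1)).toReal ≤ VP := by
      rw [← measure_vadd (μ := (volume : Measure (E (m + 2)))) a (zono v 1)]
      exact ENNReal.toReal_mono hPB.measure_lt_top.ne (measure_mono hZ)
    have hproj : ∀ i, (1 - δ) ^ (m + 1) * H (v i) ≤ projVol (zono v 1) (v i) := by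
      intro i
      rcases eq_or_ne (v i) 0 with h0 | h0
      · have := hHs 0 le_rfl 0
        rw [zero_smul, zero_mul] at this
        simp [h0, this, projVol_zero]
      obtain ⟨F⟩ := exists_frame (ν := ‖v i‖⁻¹ • v i) (norm_smul_inv_norm h0)
      set W := wulff fun y : E (m + 1) => projVol K (F.S (0, y))
      have hsubset : (1 - δ) • W ⊆ F.proj '' (a +ᵥ zono v 1) := by
        rintro _ ⟨y, hy, rfl⟩
        by_contra hnot
        set Z := a +ᵥ zono v 1
        have hZb : Body Z := (zono_body v 1).vadd a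
        have hconv : Convex ℝ (F.proj '' Z) := by
          have h := hZb.conv.linear_image ((LinearMap.snd ℝ ℝ (E (m + 1))) ∘ₗ
            F.S.symm.toLinearEquiv.toLinearMap)
          exact h
        obtain ⟨f, s, hf1, hf2⟩ := geometric_hahn_banach_closed_point hconv
          (hZb.cpt.image F.continuous_proj).isClosed hnot
        set z := (InnerProductSpace.toDual ℝ (E (m + 1))).symm f with hz
        have hfz : ∀ x, f x = ⟪z, x⟫ := fun x => by rw [hz, InnerProductSpace.toDual_symm_apply]
        set e : Fin k → ℝ := fun j => if 0 ≤ ⟪v j, F.S (0, z)⟫ then 1 else 0 with he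
        have hmem : a + ∑ j, e j • v j ∈ Z := by
          refine ⟨_, ⟨e, ⟨fun j => ?_, fun j => ?_⟩, rfl⟩, rfl⟩ <;>
            simp only [he, Pi.zero_apply, Pi.one_apply] <;> split_ifs <;> norm_num
        have h1 := hf1 _ (mem_image_of_mem F.proj hmem)
        have h2 : ⟪a + ∑ j, e j • v j, F.S (0, z)⟫ = 1 / 2 * ∑ j, |⟪v j, F.S (0, z)⟫| := by
          rw [ha, inner_add_left, inner_neg_left, real_inner_smul_left, sum_inner, sum_inner,
            Finset.mul_sum, Finset.mul_sum, ← Finset.sum_neg_distrib, ← Finset.sum_add_distrib]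
          refine Finset.sum_congr rfl fun j _ => ?_
          rw [real_inner_smul_left, he]
          dsimp only
          split_ifs with h
          · rw [abs_of_nonneg h]; ring
          · rw [abs_of_neg (not_le.1 h)]; ring
        have h3 := happ (fun x => |⟪x, F.S (0, z)⟫|) ‖F.S (0, z)‖₊
          (LipschitzWith.of_le_add_mul _ fun x x' => by
            have h4 := abs_sub_abs_le_abs_sub ⟪x, F.S (0, z)⟫ ⟪x', F.S (0, z)⟫
            rw [← inner_sub_left] at h4
            have h5 := abs_real_inner_le_norm (x - x') (F.S (0, z))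
            rw [coe_nnnorm, dist_eq_norm, mul_comm]
            linarith)
          (fun c hc x => by rw [real_inner_smul_left, abs_mul, abs_of_nonneg hc])
        rw [J_abs hK, coe_nnnorm] at h3
        have h4 := (abs_le.1 h3).1
        have h5 : (1 - δ) * projVol K (F.S (0, z)) ≤ f (F.proj (a + ∑ j, e j • v j)) := by
          rw [hfz, real_inner_comm, ← F.inner_hyper, h2]
          have h6 := hlow (F.S (0, z))
          have h7 : ε * T * ‖F.S (0, z)‖ ≤ δ * c₀ * ‖F.S (0, z)‖ := by
            refine mul_le_mul_of_nonneg_right (hεT.trans ?_) (norm_nonneg _)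
            exact mul_le_mul_of_nonneg_left (min_le_left _ _) hδ.le
          have h8 := mul_le_mul_of_nonneg_left h6 hδ.le
          linarith
        have h6 : f ((1 - δ) • y) ≤ (1 - δ) * projVol K (F.S (0, z)) := by
          rw [hfz, inner_smul_right, real_inner_comm]
          exact mul_le_mul_of_nonneg_left (hy z) (by linarith)
        linarith
      have h1 : (1 - δ) ^ (m + 1) * (volume W).toReal ≤ (volume (F.proj '' (a +ᵥ zono v 1))).toReal := by
        rw [← volume_smul (by linarith : 0 ≤ 1 - δ)]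
        exact ENNReal.toReal_mono
          (((zono_body v 1).vadd a).cpt.image F.continuous_proj).measure_lt_top.ne
          (measure_mono hsubset)
      have h2 : projVol (zono v 1) (v i) =
          ‖v i‖ * (volume (F.proj '' (a +ᵥ zono v 1))).toReal := by
        rw [← projVol_vadd (zono_body v 1) a]
        conv_lhs => arg 2; rw [show v i = ‖v i‖ • (‖v i‖⁻¹ • v i) by
          rw [smul_smul, mul_inv_cancel₀ (norm_ne_zero_iff.2 h0), one_smul]]
        rw [F.projVol_eq, abs_norm]
      rw [h2]
      calc (1 - δ) ^ (m + 1) * H (v i) ≤ (1 - δ) ^ (m + 1) * (‖v i‖ * (volume W).toReal) :=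
            mul_le_mul_of_nonneg_left (hW _ h0 F) (pow_nonneg (by linarith) _)
        _ = ‖v i‖ * ((1 - δ) ^ (m + 1) * (volume W).toReal) := by ring
        _ ≤ _ := mul_le_mul_of_nonneg_left h1 (norm_nonneg _)
    have hsum : (∑ i, projVol (zono v 1) (v i)) ≤ (m + 2 : ℝ) * VP := by
      have := (volume_zono (Nat.succ_ne_zero m) v).trans hvol
      rw [div_le_iff₀ (by positivity)] at this
      push_cast at this
      linarith
    refine le_trans ?_ hsum
    refine le_trans ?_ (Finset.sum_le_sum fun i _ => hproj i)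
    rw [← Finset.mul_sum]
    refine mul_le_mul_of_nonneg_left ?_ (pow_nonneg (by linarith) _)
    have h1 := (abs_le.1 (happ H L hH hHs)).1
    have h2 : ε * T ≤ δ := hεT.trans (mul_le_of_le_one_right hδ.le (min_le_right _ _))
    have h3 := mul_le_mul_of_nonneg_left h2 L.coe_nonneg
    linarith
  have hlim : Tendsto (fun δ : ℝ => (1 - δ) ^ (m + 1) * (J K H - 2 * L * δ)) (𝓝[>] 0)
      (𝓝 (J K H)) := by
    have : Continuous fun δ : ℝ => (1 - δ) ^ (m + 1) * (J K H - 2 * L * δ) := by fun_prop
    simpa using (this.tendsto 0).mono_left nhdsWithin_le_nhds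
  refine le_of_tendsto hlim ?_
  filter_upwards [Ioo_mem_nhdsGT (zero_lt_one (α := ℝ))] with δ hδ
  exact key δ hδ.1 hδ.2

end Vale.Agent.P237
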