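import Mathlib

/-!
P237: the notions used in the hand-in statement.
-/

open MeasureTheory
open scoped RealInnerProductSpace

namespace Vale.Agent.P237.Statement

/-- Euclidean space. -/
abbrev Space (n : ℕ) := EuclideanSpace ℝ (Fin n)

/-- Compact, convex, with nonempty interior. -/
def IsConvexBody {n : ℕ} (K : Set (Space n)) : Prop :=
  Convex ℝ K ∧ IsCompact K ∧ (interior K).Nonempty

/-- Lebesgue volume. -/
noncomputable def vol {n : ℕ} (K : Set (Space n)) : ℝ := (volume K).toReal

/-- Orthogonal projection onto the hyperplane `u^⊥`. -/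
noncomputable def hyperProj {n : ℕ} (u x : Space n) : Space n := x - (⟪u, x⟫ / ‖u‖ ^ 2) • u

/-- The Euclidean `d`-dimensional measure (Lebesgue measure on each `d`-dimensional subspace). -/
noncomputable def area (n d : ℕ) : Measure (Space n) := Measure.euclideanHausdorffMeasure d

/-- `‖u‖ · vol_{n-1}` of the projection of `K` onto `u^⊥`. -/
noncomputable def projFun {n : ℕ} (K : Set (Space n)) (u : Space n) : ℝ :=
  ‖u‖ * (area n (n - 1) (hyperProj u '' K)).toReal

/-- The projection body. -/
noncomputable def projectionBody {n : ℕ} (K : Set (Space n)) : Set (Space n) :=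
  {y | ∀ u, ⟪y, u⟫ ≤ projFun K u}

/-- `h` is the support function of `P`. -/
def IsSupportFun {n : ℕ} (P : Set (Space n)) (h : Space n → ℝ) : Prop :=
  ∀ u, IsGreatest ((fun y => ⟪y, u⟫) '' P) (h u)

end Vale.Agent.P237.Statement
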