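import Vale.Agent.P237.Main
import Vale.Agent.P237.Statement

/-!
The statement notions agree with the ones used in the proof.
-/

open MeasureTheory Set Module
open scoped RealInnerProductSpace

namespace Vale.Agent.P237

open Statement

lemma projFun_eq {n : ℕ} (K : Set (E n)) : projFun K = projVol K := by
  funext u
  rcases eq_or_ne u 0 with rfl | hu
  · simp [projFun, projVol]
  set U := (ℝ ∙ u)ᗮ with hU
  have hfin : finrank ℝ U = n - 1 := by
    have h := Submodule.finrank_add_finrank_orthogonal (ℝ ∙ u)
    rw [finrank_span_singleton hu, finrank_euclideanSpace_fin, ← hU] at h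
    omega
  have hP : ∀ x, hyperProj u x = (U.orthogonalProjectionOnto x : E n) := by
    intro x
    show hyperProj u x = ((ℝ ∙ u)ᗮ.orthogonalProjectionOnto x : E n)
    rw [← Submodule.starProjection_apply, Submodule.starProjection_orthogonal']
    simp [hyperProj, Submodule.starProjection_singleton]
  have himg : hyperProj u '' K = (Subtype.val : U → E n) '' (U.orthogonalProjectionOnto '' K) := by
    rw [image_image]; exact image_congr fun x _ => hP x
  have hiso : Isometry (Subtype.val : U → E n) := isometry_subtype_coe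
  rw [projFun, projVol, area, himg, hiso.euclideanHausdorffMeasure_image, ← hfin,
    InnerProductSpace.euclideanHausdorffMeasure_eq_volume]

lemma projectionBody_eq {n : ℕ} (K : Set (E n)) : projectionBody K = projBody K := by
  simp only [projectionBody, projBody, projFun_eq]

theorem statement_bound {n : ℕ} (hn : 1 ≤ n) {K : Set (E n)} (hK : IsConvexBody K) :
    IsConvexBody (projectionBody K) ∧ IsSupportFun (projectionBody K) (projFun K) ∧
      2 ^ n * (n : ℝ) ^ n / (n.factorial : ℝ) ^ 2 * vol K ^ (n - 1) ≤ vol (projectionBody K) := by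
  obtain ⟨hc, hk, hi⟩ := hK
  rw [projectionBody_eq, projFun_eq]
  refine ⟨?_, ?_, projBody_volume_lower hn hc hk hi⟩
  all_goals obtain ⟨m, rfl⟩ := Nat.exists_eq_add_of_le' hn
  · have h := (sublin_projVol ⟨hc, hk⟩ hi).cen
    exact ⟨h.conv, h.cpt, ⟨0, h.int⟩⟩
  · intro u
    obtain ⟨y, hy, e⟩ := (sublin_projVol ⟨hc, hk⟩ hi).exists_support u
    exact ⟨⟨y, hy, e⟩, by rintro _ ⟨z, hz, rfl⟩; exact hz u⟩

end Vale.Agent.P237
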