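import Vale.Agent.P237.Frame
import Vale.Agent.P254.Sym.PL

/-!
The Brunn-Minkowski inequality in `ℝ^N`, in additive form.
-/

open MeasureTheory Set
open scoped Pointwise ENNReal

namespace Vale.Agent.P237

lemma bm_pi {N : ℕ} {a b : ℝ} (ha : 0 < a) (hb : 0 < b) (hab : a + b = 1)
    {A B : Set (Fin N → ℝ)} (hA : IsCompact A) (hB : IsCompact B) :
    volume A ^ a * volume B ^ b ≤ volume (a • A + b • B) := by
  have hC : MeasurableSet (a • A + b • B) := ((hA.smul a).add (hB.smul b)).measurableSet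
  have h := Vale.Agent.P254.Sym.pl_vol ha hb hab N (f := A.indicator 1) (g := B.indicator 1)
    (h := (a • A + b • B).indicator 1) (measurable_const.indicator hA.measurableSet)
    (measurable_const.indicator hB.measurableSet) (measurable_const.indicator hC) ?_
  · rwa [lintegral_indicator_one hA.measurableSet, lintegral_indicator_one hB.measurableSet,
      lintegral_indicator_one hC] at h
  intro x y
  by_cases hx : x ∈ A
  · by_cases hy : y ∈ B
    · rw [indicator_of_mem hx, indicator_of_mem hy,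
        indicator_of_mem (add_mem_add (smul_mem_smul_set hx) (smul_mem_smul_set hy))]
      simp
    · simp [indicator_of_notMem hy, ENNReal.zero_rpow_of_pos hb]
  · simp [indicator_of_notMem hx, ENNReal.zero_rpow_of_pos ha]

lemma bm_mul {N : ℕ} {a b : ℝ} (ha : 0 < a) (hb : 0 < b) (hab : a + b = 1)
    {A B : Set (E N)} (hA : IsCompact A) (hB : IsCompact B) :
    volume A ^ a * volume B ^ b ≤ volume (a • A + b • B) := by
  have hmp : MeasurePreserving (WithLp.toLp 2 : (Fin N → ℝ) → E N) volume volume :=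
    PiLp.volume_preserving_toLp _
  have key : ∀ S : Set (E N), IsCompact S → volume ((WithLp.ofLp : E N → Fin N → ℝ) '' S) = volume S := by
    intro S hS
    rw [← hmp.measure_preimage hS.measurableSet.nullMeasurableSet]
    congr 1
    ext y
    exact ⟨fun ⟨x, hx, e⟩ => e ▸ hx, fun h => ⟨_, h, rfl⟩⟩
  have himg : (WithLp.ofLp : E N → Fin N → ℝ) '' (a • A + b • B) =
      a • ((WithLp.ofLp : E N → Fin N → ℝ) '' A) + b • ((WithLp.ofLp : E N → Fin N → ℝ) '' B) := by
    show (WithLp.linearEquiv 2 ℝ (Fin N → ℝ)) '' (a • A + b • B) = _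
    rw [Set.image_add, image_smul_set, image_smul_set]
    rfl
  rw [← key A hA, ← key B hB, ← key _ ((hA.smul a).add (hB.smul b)), himg]
  exact bm_pi ha hb hab (hA.image (PiLp.continuous_ofLp 2 _)) (hB.image (PiLp.continuous_ofLp 2 _))

lemma volume_smul {N : ℕ} {r : ℝ} (hr : 0 ≤ r) (A : Set (E N)) :
    (volume (r • A)).toReal = r ^ N * (volume A).toReal := by
  rw [Measure.addHaar_smul_of_nonneg _ hr, ENNReal.toReal_mul,
    ENNReal.toReal_ofReal (pow_nonneg hr _), finrank_euclideanSpace_fin]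

/-- Brunn-Minkowski: if `|A| ≥ a^N` and `|B| ≥ b^N` then `|A + B| ≥ (a + b)^N`. -/
theorem bm {N : ℕ} {A B : Set (E N)} (hA : IsCompact A) (hB : IsCompact B)
    (hA0 : A.Nonempty) (hB0 : B.Nonempty) {a b : ℝ} (ha : 0 ≤ a) (hb : 0 ≤ b)
    (hAa : a ^ N ≤ (volume A).toReal) (hBb : b ^ N ≤ (volume B).toReal) :
    (a + b) ^ N ≤ (volume (A + B)).toReal := by
  have hsum : IsCompact (A + B) := hA.add hB
  rcases ha.eq_or_lt with rfl | ha'
  · obtain ⟨x, hx⟩ := hA0
    rw [zero_add]
    refine hBb.trans (ENNReal.toReal_mono hsum.measure_lt_top.ne ?_)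
    calc volume B = volume (x +ᵥ B) := (measure_vadd _ _ _).symm
      _ ≤ _ := measure_mono (by rintro _ ⟨y, hy, rfl⟩; exact add_mem_add hx hy)
  rcases hb.eq_or_lt with rfl | hb'
  · obtain ⟨x, hx⟩ := hB0
    rw [add_zero]
    refine hAa.trans (ENNReal.toReal_mono hsum.measure_lt_top.ne ?_)
    calc volume A = volume (x +ᵥ A) := (measure_vadd _ _ _).symm
      _ ≤ _ := measure_mono (by rintro _ ⟨y, hy, rfl⟩; simp only [vadd_eq_add, add_comm x y]; exact add_mem_add hy hx)
  have hs : 0 < a + b := by linarith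
  set p := a / (a + b) with hp
  set q := b / (a + b) with hq
  have hp0 : 0 < p := div_pos ha' hs
  have hq0 : 0 < q := div_pos hb' hs
  have hpq : p + q = 1 := by rw [hp, hq, ← add_div, div_self hs.ne']
  have hA' : (a + b) ^ N ≤ (volume (p⁻¹ • A)).toReal := by
    rw [volume_smul (inv_nonneg.2 hp0.le)]
    refine le_trans (le_of_eq ?_) (mul_le_mul_of_nonneg_left hAa (by positivity))
    rw [← mul_pow, hp, inv_div, div_mul_cancel₀ _ ha'.ne']
  have hB' : (a + b) ^ N ≤ (volume (q⁻¹ • B)).toReal := by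
    rw [volume_smul (inv_nonneg.2 hq0.le)]
    refine le_trans (le_of_eq ?_) (mul_le_mul_of_nonneg_left hBb (by positivity))
    rw [← mul_pow, hq, inv_div, div_mul_cancel₀ _ hb'.ne']
  have h := ENNReal.toReal_mono ((hA.smul p⁻¹).smul p |>.add ((hB.smul q⁻¹).smul q)).measure_lt_top.ne
    (bm_mul hp0 hq0 hpq (hA.smul p⁻¹) (hB.smul q⁻¹))
  rw [smul_inv_smul₀ hp0.ne', smul_inv_smul₀ hq0.ne', ENNReal.toReal_mul, ← ENNReal.toReal_rpow,
    ← ENNReal.toReal_rpow] at h
  refine le_trans ?_ h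
  · have hN : 0 < (a + b) ^ N := pow_pos hs N
    calc (a + b) ^ N = ((a + b) ^ N) ^ p * ((a + b) ^ N) ^ q := by
          rw [← Real.rpow_add hN, hpq, Real.rpow_one]
      _ ≤ _ := mul_le_mul (Real.rpow_le_rpow hN.le hA' hp0.le) (Real.rpow_le_rpow hN.le hB' hq0.le)
          (Real.rpow_nonneg hN.le _) (Real.rpow_nonneg ENNReal.toReal_nonneg _)

end Vale.Agent.P237
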