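import Vale.Agent.P237.Prod

/-!
The constant of the conjecture is below the bounds available for products of small bodies.
-/

open MeasureTheory Set Real

namespace Vale.Agent.P237

open Statement

lemma ballVol_eq (n : ℕ) : ballVol (n + 1) = √π ^ (n + 1) / Gamma (((n + 1 : ℕ) : ℝ) / 2 + 1) := by
  rw [ballVol, vol, EuclideanSpace.volume_closedBall]
  simp only [Fintype.card_fin, ENNReal.ofReal_one, one_pow, one_mul]
  rw [ENNReal.toReal_ofReal]
  exact div_nonneg (by positivity) (Gamma_pos_of_pos (by positivity)).le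

lemma ballVol_pos (n : ℕ) : 0 < ballVol (n + 1) := by
  rw [ballVol_eq]; exact div_pos (by positivity) (Gamma_pos_of_pos (by positivity))

lemma ballVol_rec (n : ℕ) : ballVol (n + 3) = 2 * π / ((n : ℝ) + 3) * ballVol (n + 1) := by
  rw [ballVol_eq, ballVol_eq]
  have e : ((n + 2 + 1 : ℕ) : ℝ) / 2 + 1 = (((n + 1 : ℕ) : ℝ) / 2 + 1) + 1 := by push_cast; ring
  rw [e, Gamma_add_one (by positivity)]
  have hG := (Gamma_pos_of_pos (by positivity : (0 : ℝ) < ((n + 1 : ℕ) : ℝ) / 2 + 1)).ne'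
  rw [show √π ^ (n + 2 + 1) = √π ^ (n + 1) * π by
    rw [show n + 2 + 1 = (n + 1) + 2 by omega, pow_add, Real.sq_sqrt Real.pi_pos.le]]
  push_cast at *
  field_simp
  ring

lemma ballVol_one : ballVol 1 = 2 := by
  rw [ballVol_eq 0]
  norm_num
  rw [show (3 / 2 : ℝ) = 1 / 2 + 1 by norm_num, Gamma_add_one (by norm_num), Real.Gamma_one_half_eq]
  have : √π ≠ 0 := (Real.sqrt_pos.2 Real.pi_pos).ne'
  field_simp

lemma ballVol_two : ballVol 2 = π := by
  rw [ballVol_eq 1]
  norm_num [Real.sq_sqrt Real.pi_pos.le]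

lemma ballVol_logConcave (n : ℕ) : ballVol (n + 1) * ballVol (n + 3) ≤ ballVol (n + 2) ^ 2 := by
  rw [ballVol_eq, ballVol_eq, ballVol_eq]
  set x : ℝ := ((n + 1 : ℕ) : ℝ) / 2 + 1 with hx
  have hx0 : 0 < x := by positivity
  have e2 : ((n + 1 + 1 : ℕ) : ℝ) / 2 + 1 = x + 1 / 2 := by rw [hx]; push_cast; ring
  have e3 : ((n + 2 + 1 : ℕ) : ℝ) / 2 + 1 = x + 1 := by rw [hx]; push_cast; ring
  rw [e2, e3]
  have h := Real.convexOn_log_Gamma.2 (show x ∈ Ioi (0 : ℝ) from hx0)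
    (show x + 1 ∈ Ioi (0 : ℝ) by show (0:ℝ) < x + 1; linarith)
    (show (0 : ℝ) ≤ 1 / 2 by norm_num) (show (0 : ℝ) ≤ 1 / 2 by norm_num) (by norm_num)
  simp only [smul_eq_mul, Function.comp_apply] at h
  rw [show 1 / 2 * x + 1 / 2 * (x + 1) = x + 1 / 2 by ring] at h
  have g1 := Gamma_pos_of_pos hx0
  have g2 := Gamma_pos_of_pos (by linarith : (0:ℝ) < x + 1)
  have g3 := Gamma_pos_of_pos (by linarith : (0:ℝ) < x + 1 / 2)
  have h2 : Gamma (x + 1 / 2) ^ 2 ≤ Gamma x * Gamma (x + 1) := by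
    rw [← Real.log_le_log_iff (by positivity) (by positivity), Real.log_pow, Real.log_mul g1.ne' g2.ne']
    push_cast
    linarith
  rw [div_mul_div_comm, div_pow, ← pow_add, ← pow_mul, show n + 1 + (n + 2 + 1) = (n + 1 + 1) * 2 by omega]
  exact div_le_div_of_nonneg_left (by positivity) (by positivity) h2

lemma ratio_bound (n : ℕ) :
    ballVol (n + 1) ^ 2 / ballVol (n + 2) ^ 2 ≤ ((n : ℝ) + 3) / (2 * π) := by
  have h := ballVol_logConcave n
  rw [ballVol_rec] at h
  have h1 := ballVol_pos n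
  have h2 := ballVol_pos (n + 1)
  rw [div_le_div_iff₀ (by positivity) (by positivity)]
  rw [div_mul_eq_mul_div, mul_div_assoc', div_le_iff₀ (by positivity)] at h
  linarith

/-- An upper bound for `pettyConst (n+2) ^ 2`. -/
noncomputable def upperSq (n : ℕ) : ℝ := ballVol (n + 1) ^ 4 * (((n : ℝ) + 3) / (2 * π)) ^ n

lemma pettyConst_sq (n : ℕ) : pettyConst (n + 2) ^ 2 ≤ upperSq n := by
  have h1 := ballVol_pos n
  have h2 := ballVol_pos (n + 1)
  have e : pettyConst (n + 2) ^ 2 =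
      ballVol (n + 1) ^ 4 * (ballVol (n + 1) ^ 2 / ballVol (n + 2) ^ 2) ^ n := by
    simp only [pettyConst, show n + 2 - 1 = n + 1 by omega, Nat.add_sub_cancel]
    rw [div_pow, div_pow, ← pow_mul, ← pow_mul, ← pow_mul, ← pow_mul, mul_div_assoc', ← pow_add]
    congr 1 <;> congr 1 <;> omega
  rw [e, upperSq]
  exact mul_le_mul_of_nonneg_left (pow_le_pow_left₀ (by positivity) (ratio_bound n) n) (by positivity)

/-- The bound for products of bodies of dimension at most three. -/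
noncomputable def prodConst (n : ℕ) : ℝ := 2 ^ n * (3 / 4 : ℝ) ^ (n / 3)

lemma prodConst_pos (n : ℕ) : 0 < prodConst n := by unfold prodConst; positivity

lemma upperSq_step (n : ℕ) (hn : 5 ≤ n) : upperSq (n + 2) ≤ 9 * upperSq n := by
  have hn' : (5 : ℝ) ≤ n := by exact_mod_cast hn
  have hπ := Real.pi_pos
  have hπ2 := Real.pi_lt_d2
  set s := ((n : ℝ) + 3) / (2 * π) with hs
  set s' := ((n : ℝ) + 5) / (2 * π) with hs'
  set ρ := ((n : ℝ) + 5) / ((n : ℝ) + 3) with hρ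
  have e : upperSq (n + 2) = upperSq n * ((2 * π / ((n : ℝ) + 3)) ^ 4 * s' ^ 2 * ρ ^ n) := by
    rw [upperSq, upperSq, show n + 2 + 1 = n + 3 by omega, ballVol_rec]
    push_cast
    rw [show (n : ℝ) + 2 + 3 = n + 5 by ring, ← hs', pow_add, show s' ^ n = s ^ n * ρ ^ n by
      rw [← mul_pow, hs, hρ, hs']; congr 1; field_simp]
    ring
  have hρn : ρ ^ n ≤ 8 := by
    have h1 : ρ ≤ Real.exp (2 / ((n : ℝ) + 3)) := by
      refine le_trans (le_of_eq ?_) (Real.add_one_le_exp _)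
      rw [hρ]; field_simp; ring
    refine (pow_le_pow_left₀ (by positivity) h1 n).trans ?_
    rw [← Real.exp_nat_mul]
    refine le_trans (Real.exp_le_exp.2 (show (n : ℝ) * (2 / ((n : ℝ) + 3)) ≤ 2 by
      rw [mul_div_assoc', div_le_iff₀ (by positivity)]; linarith)) ?_
    rw [show (2 : ℝ) = (2 : ℕ) * 1 by norm_num, Real.exp_nat_mul]
    have := Real.exp_one_lt_d9
    nlinarith [Real.exp_pos 1]
  have hX : (2 * π / ((n : ℝ) + 3)) ^ 4 * s' ^ 2 ≤ 1 := by
    have e2 : (2 * π / ((n : ℝ) + 3)) ^ 4 * s' ^ 2 =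
        (2 * π * ((n : ℝ) + 5) / ((n : ℝ) + 3) ^ 2) ^ 2 := by
      rw [hs']; field_simp
    rw [e2]
    refine pow_le_one₀ (by positivity) ((div_le_one (by positivity)).2 ?_)
    nlinarith
  have hU : 0 ≤ upperSq n := by
    rw [upperSq]
    have := ballVol_pos n
    positivity
  have hrho0 : 0 ≤ ρ ^ n := by positivity
  have hXρ : (2 * π / ((n : ℝ) + 3)) ^ 4 * s' ^ 2 * ρ ^ n ≤ 9 := by
    refine (mul_le_mul hX hρn hrho0 zero_le_one).trans ?_
    norm_num
  rw [e, mul_comm]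
  exact mul_le_mul_of_nonneg_right hXρ hU

lemma prodConst_step (n : ℕ) : 3 * prodConst n ≤ prodConst (n + 2) := by
  unfold prodConst
  rcases (show (n + 2) / 3 = n / 3 ∨ (n + 2) / 3 = n / 3 + 1 by omega) with h | h
  · rw [h, pow_add]
    have : 0 ≤ (2 : ℝ) ^ n * (3 / 4) ^ (n / 3) := by positivity
    linarith
  · rw [h, pow_add, pow_succ]
    ring_nf
    exact le_rfl

lemma petty_lt : ∀ n, 5 ≤ n → pettyConst n < prodConst n := by
  have k3 : ballVol 3 = 4 / 3 * π := by rw [ballVol_rec 0, ballVol_one]; push_cast; ring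
  have k4 : ballVol 4 = π ^ 2 / 2 := by rw [ballVol_rec 1, ballVol_two]; push_cast; ring
  have k5 : ballVol 5 = 8 / 15 * π ^ 2 := by rw [ballVol_rec 2, k3]; push_cast; ring
  have k6 : ballVol 6 = π ^ 3 / 6 := by rw [ballVol_rec 3, k4]; push_cast; ring
  have k7 : ballVol 7 = 16 / 105 * π ^ 3 := by rw [ballVol_rec 4, k5]; push_cast; ring
  have hπ := Real.pi_pos
  have h5 : pettyConst 5 < prodConst 5 := by
    rw [pettyConst, prodConst, show (5 : ℕ) - 1 = 4 from rfl, show (5 : ℕ) - 2 = 3 from rfl, k4, k5,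
      show (π ^ 2 / 2) ^ 5 / (8 / 15 * π ^ 2) ^ 3 = 3375 / 16384 * π ^ 4 by field_simp; ring]
    have h : π ^ 4 < 3.15 ^ 4 := pow_lt_pow_left₀ Real.pi_lt_d2 hπ.le (by norm_num)
    norm_num
    nlinarith
  have h6 : pettyConst 6 < prodConst 6 := by
    rw [pettyConst, prodConst, show (6 : ℕ) - 1 = 5 from rfl, show (6 : ℕ) - 2 = 4 from rfl, k5, k6,
      show (8 / 15 * π ^ 2) ^ 6 / (π ^ 3 / 6) ^ 4 = 8 ^ 6 * 6 ^ 4 / 15 ^ 6 by field_simp]
    norm_num
  have hsq : ∀ n, upperSq (n + 5) < prodConst (n + 7) ^ 2 := by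
    intro n
    induction n using Nat.twoStepInduction with
    | zero =>
      rw [upperSq, prodConst, k6, show (π ^ 3 / 6) ^ 4 * ((((0 + 5 : ℕ) : ℝ) + 3) / (2 * π)) ^ (0 + 5)
          = 4 ^ 5 / 6 ^ 4 * π ^ 7 by push_cast; field_simp; ring]
      have h : π ^ 7 < 3.15 ^ 7 := pow_lt_pow_left₀ Real.pi_lt_d2 hπ.le (by norm_num)
      norm_num
      nlinarith
    | one =>
      rw [upperSq, prodConst, k7, show (16 / 105 * π ^ 3) ^ 4 *
          ((((1 + 5 : ℕ) : ℝ) + 3) / (2 * π)) ^ (1 + 5)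
          = (16 / 105) ^ 4 * (9 / 2) ^ 6 * π ^ 6 by push_cast; field_simp; ring]
      have h : π ^ 6 < 3.15 ^ 6 := pow_lt_pow_left₀ Real.pi_lt_d2 hπ.le (by norm_num)
      norm_num
      nlinarith
    | more k ih1 ih2 =>
      have h1 := upperSq_step (k + 5) (by omega)
      have h2 := pow_le_pow_left₀ (by linarith [prodConst_pos (k + 7)]) (prodConst_step (k + 7)) 2
      rw [show k + 2 + 5 = k + 5 + 2 by omega, show k + 2 + 7 = k + 7 + 2 by omega]
      nlinarith
  intro n hn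
  rcases (show n = 5 ∨ n = 6 ∨ 7 ≤ n by omega) with rfl | rfl | h
  · exact h5
  · exact h6
  obtain ⟨m, rfl⟩ := Nat.exists_eq_add_of_le' h
  have h1 := pettyConst_sq (m + 5)
  exact lt_of_pow_lt_pow_left₀ 2 (prodConst_pos _).le (lt_of_le_of_lt h1 (hsq m))

lemma petty_lt_small : pettyConst 3 < 8 ∧ pettyConst 4 < 16 := by
  have k3 : ballVol 3 = 4 / 3 * π := by rw [ballVol_rec 0, ballVol_one]; push_cast; ring
  have k4 : ballVol 4 = π ^ 2 / 2 := by rw [ballVol_rec 1, ballVol_two]; push_cast; ring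
  have hπ := Real.pi_pos
  constructor
  · rw [pettyConst, show (3 : ℕ) - 1 = 2 from rfl, show (3 : ℕ) - 2 = 1 from rfl, ballVol_two, k3,
      show π ^ 3 / (4 / 3 * π) ^ 1 = 3 / 4 * π ^ 2 by field_simp]
    nlinarith [Real.pi_lt_d2]
  · rw [pettyConst, show (4 : ℕ) - 1 = 3 from rfl, show (4 : ℕ) - 2 = 2 from rfl, k3, k4,
      show (4 / 3 * π) ^ 4 / (π ^ 2 / 2) ^ 2 = 1024 / 81 by field_simp; ring]
    norm_num

lemma product_two_three {n : ℕ} {K : Set (E n)} (h : IsProduct 2 n K) : IsProduct 3 n K := by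
  induction h with
  | base h1 h2 hK => exact .base h1 (by omega) hK
  | prod _ _ ihK ihL => exact .prod ihK ihL

/-- A supermultiplicative constant below `cst` in the allowed dimensions is a bound for products. -/
lemma product_bound {D : ℕ} {c : ℕ → ℝ} (hc0 : ∀ k, 0 ≤ c k)
    (hbase : ∀ k, 1 ≤ k → k ≤ D → c k ≤ cst k) (hmul : ∀ p q, c (p + q) ≤ c p * c q)
    {n : ℕ} {K : Set (E n)} (h : IsProduct D n K) :
    1 ≤ n ∧ IsConvexBody K ∧ c n * vol K ^ (n - 1) ≤ vol (projectionBody K) := by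
  induction h with
  | @base k K h1 h2 hK =>
    exact ⟨h1, hK, (mul_le_mul_of_nonneg_right (hbase k h1 h2)
      (pow_nonneg ENNReal.toReal_nonneg _)).trans (statement_bound h1 hK).2.2⟩
  | @prod p q K L _ _ ihK ihL =>
    obtain ⟨hp, hK, hKb⟩ := ihK
    obtain ⟨hq, hL, hLb⟩ := ihL
    refine ⟨by omega, prodSet_isConvexBody hK hL, le_trans ?_
      (prod_bound hp hq hK hL (hc0 p) (hc0 q) hKb hLb)⟩
    exact mul_le_mul_of_nonneg_right (hmul p q) (pow_nonneg ENNReal.toReal_nonneg _)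

theorem petty_product {n : ℕ} {K : Set (E n)}
    (h : (3 ≤ n ∧ IsProduct 2 n K) ∨ (5 ≤ n ∧ IsProduct 3 n K)) :
    IsConvexBody K ∧ pettyConst n * vol K ^ (n - 1) < vol (projectionBody K) := by
  have key : ∀ c : ℝ, IsConvexBody K → pettyConst n < c →
      c * vol K ^ (n - 1) ≤ vol (projectionBody K) →
      pettyConst n * vol K ^ (n - 1) < vol (projectionBody K) := by
    intro c hK hlt hle
    refine lt_of_lt_of_le (mul_lt_mul_of_pos_right hlt ?_) hle
    exact pow_pos (ENNReal.toReal_pos ((Measure.measure_pos_of_nonempty_interior volume hK.2.2).ne')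
      hK.2.1.measure_lt_top.ne) _
  by_cases h5 : 5 ≤ n
  · have h3 : IsProduct 3 n K := by
      rcases h with ⟨-, h2⟩ | ⟨-, h3⟩
      exacts [product_two_three h2, h3]
    obtain ⟨-, hK, hb⟩ := product_bound (c := prodConst) (fun k => (prodConst_pos k).le)
      (fun k h1 h2 => by
        rcases (show k = 1 ∨ k = 2 ∨ k = 3 by omega) with rfl | rfl | rfl <;>
          norm_num [prodConst, cst, Nat.factorial])
      (fun p q => by
        unfold prodConst
        rw [pow_add, mul_mul_mul_comm, ← pow_add (3 / 4 : ℝ)]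
        exact mul_le_mul_of_nonneg_left
          (pow_le_pow_of_le_one (by norm_num) (by norm_num) (by omega)) (by positivity)) h3
    exact ⟨hK, key _ hK (petty_lt n h5) hb⟩
  · obtain ⟨h3, h2⟩ : 3 ≤ n ∧ IsProduct 2 n K := h.resolve_right fun h => h5 h.1
    obtain ⟨-, hK, hb⟩ := product_bound (c := fun k => (2 : ℝ) ^ k) (fun k => by positivity)
      (fun k h1 h2 => by
        rcases (show k = 1 ∨ k = 2 by omega) with rfl | rfl <;> norm_num [cst, Nat.factorial])
      (fun p q => (pow_add _ _ _).le) h2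
    refine ⟨hK, key _ hK ?_ hb⟩
    rcases (show n = 3 ∨ n = 4 by omega) with rfl | rfl
    · norm_num; exact petty_lt_small.1
    · norm_num; exact petty_lt_small.2

end Vale.Agent.P237
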