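import Vale.Agent.P237.Statement

/-!
P237: orthogonal products of convex bodies and the constant of the conjecture.
-/

namespace Vale.Agent.P237.Statement

/-- The orthogonal product `K × L` in `ℝ^(a+b)`. -/
def prodSet {a b : ℕ} (K : Set (Space a)) (L : Set (Space b)) : Set (Space (a + b)) :=
  {z | WithLp.toLp 2 (fun i => z (Fin.castAdd b i)) ∈ K ∧
    WithLp.toLp 2 (fun j => z (Fin.natAdd a j)) ∈ L}

/-- Finite orthogonal products of convex bodies of dimensions between `1` and `D`. -/
inductive IsProduct (D : ℕ) : (n : ℕ) → Set (Space n) → Prop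
  | base {n : ℕ} {K : Set (Space n)} : 1 ≤ n → n ≤ D → IsConvexBody K → IsProduct D n K
  | prod {a b : ℕ} {K : Set (Space a)} {L : Set (Space b)} :
      IsProduct D a K → IsProduct D b L → IsProduct D (a + b) (prodSet K L)

/-- The volume of the Euclidean unit ball of `ℝ^n`. -/
noncomputable def ballVol (n : ℕ) : ℝ := vol (Metric.closedBall (0 : Space n) 1)

/-- `κ_{n-1}^n κ_n^{2-n}`. -/
noncomputable def pettyConst (n : ℕ) : ℝ := ballVol (n - 1) ^ n / ballVol n ^ (n - 2)

end Vale.Agent.P237.Statement
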