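import Mathlib

/-!
P237: the projection function and the projection body.
-/

open MeasureTheory
open scoped RealInnerProductSpace

namespace Vale.Agent.P237

/-- `‖u‖` times the volume of the orthogonal projection of `K` onto the hyperplane `u^⊥`. -/
noncomputable def projVol {n : ℕ} (K : Set (EuclideanSpace ℝ (Fin n)))
    (u : EuclideanSpace ℝ (Fin n)) : ℝ :=
  ‖u‖ * (volume ((ℝ ∙ u)ᗮ.orthogonalProjectionOnto '' K)).toReal

/-- The projection body: the convex body with support function `projVol K`. -/
noncomputable def projBody {n : ℕ} (K : Set (EuclideanSpace ℝ (Fin n))) :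
    Set (EuclideanSpace ℝ (Fin n)) :=
  {y | ∀ u, ⟪y, u⟫ ≤ projVol K u}

end Vale.Agent.P237
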