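import Vale.Agent.P237.Kappa

/-!
Products of bodies of bounded dimension satisfy the conjectured inequality in all large dimensions.
-/

open MeasureTheory Set Real Filter Topology

namespace Vale.Agent.P237

open Statement

lemma upperSq_nonneg (n : ℕ) : 0 ≤ upperSq n := by
  unfold upperSq
  have := ballVol_pos n
  positivity

lemma upperSq_step_eventually {ε : ℝ} (hε : 0 < ε) :
    ∃ n₀ : ℕ, ∀ n, n₀ ≤ n → upperSq (n + 2) ≤ ε * upperSq n := by
  obtain ⟨n₀, hn₀⟩ := exists_nat_ge (8 * (4 * π) ^ 2 / ε)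
  refine ⟨max n₀ 1, fun n hn => ?_⟩
  have hn1 : (1 : ℝ) ≤ n := by exact_mod_cast le_trans (le_max_right _ _) hn
  have hnε : 8 * (4 * π) ^ 2 / ε ≤ n := hn₀.trans (by exact_mod_cast le_trans (le_max_left _ _) hn)
  have hπ := Real.pi_pos
  set s := ((n : ℝ) + 3) / (2 * π) with hs
  set s' := ((n : ℝ) + 5) / (2 * π) with hs'
  set ρ := ((n : ℝ) + 5) / ((n : ℝ) + 3) with hρ
  have e : upperSq (n + 2) = upperSq n * ((2 * π / ((n : ℝ) + 3)) ^ 4 * s' ^ 2 * ρ ^ n) := by
    rw [upperSq, upperSq, show n + 2 + 1 = n + 3 by omega, ballVol_rec]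
    push_cast
    rw [show (n : ℝ) + 2 + 3 = n + 5 by ring, ← hs', pow_add, show s' ^ n = s ^ n * ρ ^ n by
      rw [← mul_pow, hs, hρ, hs']; congr 1; field_simp]
    ring
  have hρn : ρ ^ n ≤ 8 := by
    have h1 : ρ ≤ Real.exp (2 / ((n : ℝ) + 3)) := by
      refine le_trans (le_of_eq ?_) (Real.add_one_le_exp _)
      rw [hρ]; field_simp; ring
    refine (pow_le_pow_left₀ (by positivity) h1 n).trans ?_
    rw [← Real.exp_nat_mul]
    refine le_trans (Real.exp_le_exp.2 (show (n : ℝ) * (2 / ((n : ℝ) + 3)) ≤ 2 by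
      rw [mul_div_assoc', div_le_iff₀ (by positivity)]; linarith)) ?_
    rw [show (2 : ℝ) = (2 : ℕ) * 1 by norm_num, Real.exp_nat_mul]
    have := Real.exp_one_lt_d9
    nlinarith [Real.exp_pos 1]
  have hX : (2 * π / ((n : ℝ) + 3)) ^ 4 * s' ^ 2 ≤ (4 * π) ^ 2 / n := by
    have e2 : (2 * π / ((n : ℝ) + 3)) ^ 4 * s' ^ 2 =
        (2 * π * (((n : ℝ) + 5) / ((n : ℝ) + 3))) ^ 2 / ((n : ℝ) + 3) ^ 2 := by
      rw [hs']; field_simp
    rw [e2]
    refine div_le_div₀ (by positivity) (pow_le_pow_left₀ (by positivity) ?_ 2) (by linarith)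
      (by nlinarith)
    calc 2 * π * (((n : ℝ) + 5) / ((n : ℝ) + 3)) ≤ 2 * π * 2 := by
          refine mul_le_mul_of_nonneg_left ?_ (by positivity)
          rw [div_le_iff₀ (by positivity)]; linarith
      _ = 4 * π := by ring
  have hXρ : (2 * π / ((n : ℝ) + 3)) ^ 4 * s' ^ 2 * ρ ^ n ≤ ε := by
    refine (mul_le_mul hX hρn (by positivity) (by positivity)).trans ?_
    rw [div_le_iff₀ hε] at hnε
    rw [div_mul_eq_mul_div, div_le_iff₀ (by linarith)]
    linarith
  rw [e, mul_comm ε]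
  exact mul_le_mul_of_nonneg_left hXρ (upperSq_nonneg n)

/-- `pettyConst n` falls below every geometric sequence. -/
lemma pettyConst_small {γ : ℝ} (hγ : 0 < γ) : ∃ N, 3 ≤ N ∧ ∀ n, N ≤ n → pettyConst n < γ ^ n := by
  obtain ⟨n₀, hn₀⟩ := upperSq_step_eventually (show (0 : ℝ) < γ ^ 4 / 2 by positivity)
  set r : ℕ → ℝ := fun n => upperSq n / γ ^ (2 * n + 4) with hr
  have hr0 : ∀ n, 0 ≤ r n := fun n => div_nonneg (upperSq_nonneg n) (by positivity)
  have hstep : ∀ n, n₀ ≤ n → r (n + 2) ≤ r n / 2 := by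
    intro n hn
    rw [hr]
    dsimp only
    rw [div_le_iff₀ (by positivity)]
    refine (hn₀ n hn).trans (le_of_eq ?_)
    rw [show 2 * (n + 2) + 4 = 2 * n + 4 + 4 by ring, pow_add γ (2 * n + 4) 4]
    have : γ ^ (2 * n + 4) ≠ 0 := by positivity
    field_simp
  set M := max (r n₀) (r (n₀ + 1))
  have hM : ∀ k, r (n₀ + k) ≤ M / 2 ^ (k / 2) := by
    intro k
    induction k using Nat.twoStepInduction with
    | zero => simp [M]
    | one => simp [M]
    | more k ih _ =>
      rw [show n₀ + (k + 2) = n₀ + k + 2 by omega, show (k + 2) / 2 = k / 2 + 1 by omega, pow_succ]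
      refine (hstep _ (by omega)).trans ?_
      rw [← div_div]
      linarith
  obtain ⟨j, hj⟩ : ∃ j : ℕ, M < 2 ^ j := pow_unbounded_of_one_lt M one_lt_two
  refine ⟨n₀ + 2 * j + 3, by omega, fun n hn => ?_⟩
  obtain ⟨m, rfl⟩ := Nat.exists_eq_add_of_le' (show 2 ≤ n by omega)
  obtain ⟨k, rfl⟩ := Nat.exists_eq_add_of_le (show n₀ ≤ m by omega)
  have h1 : r (n₀ + k) < 1 := by
    refine (hM k).trans_lt ((div_lt_one (by positivity)).2 (hj.trans_le ?_))
    exact pow_le_pow_right₀ one_le_two (by omega)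
  rw [hr, div_lt_one (by positivity)] at h1
  refine lt_of_pow_lt_pow_left₀ 2 (by positivity) (lt_of_le_of_lt (pettyConst_sq _) ?_)
  rw [← pow_mul]
  convert h1 using 2
  ring

/-- For every `D`, products of bodies of dimension at most `D` satisfy the inequality in all large
dimensions. -/
theorem petty_product_eventually (D : ℕ) :
    ∃ N, ∀ (n : ℕ) (K : Set (E n)), N ≤ n → IsProduct D n K →
      pettyConst n * vol K ^ (n - 1) < vol (projectionBody K) := by
  classical
  set γ := ∏ k ∈ Finset.Icc 1 D, min 1 (cst k) with hγ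
  have hcst : ∀ k, 1 ≤ k → 0 < cst k := fun k hk => by
    have : (0 : ℝ) < k := by exact_mod_cast hk
    unfold cst
    positivity
  have hγ0 : 0 < γ := Finset.prod_pos fun k hk => lt_min one_pos (hcst k (Finset.mem_Icc.1 hk).1)
  have hbase : ∀ k, 1 ≤ k → k ≤ D → γ ^ k ≤ cst k := by
    intro k h1 h2
    have hk : k ∈ Finset.Icc 1 D := Finset.mem_Icc.2 ⟨h1, h2⟩
    have hle : γ ≤ min 1 (cst k) := by
      rw [hγ, ← Finset.mul_prod_erase _ _ hk]
      refine mul_le_of_le_one_right (lt_min one_pos (hcst k h1)).le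
        (Finset.prod_le_one (fun i hi => (lt_min one_pos
          (hcst i (Finset.mem_Icc.1 (Finset.mem_of_mem_erase hi)).1)).le) fun i _ => min_le_left _ _)
    calc γ ^ k ≤ γ := pow_le_of_le_one hγ0.le (hle.trans (min_le_left _ _)) (by omega)
      _ ≤ _ := hle.trans (min_le_right _ _)
  obtain ⟨N, -, hN⟩ := pettyConst_small hγ0
  refine ⟨N, fun n K hn hK => ?_⟩
  obtain ⟨-, hbody, hb⟩ := product_bound (c := fun k => γ ^ k) (fun k => by positivity) hbase
    (fun p q => (pow_add γ p q).le) hK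
  refine lt_of_lt_of_le (mul_lt_mul_of_pos_right (hN n hn) (pow_pos (ENNReal.toReal_pos
    ((Measure.measure_pos_of_nonempty_interior volume hbody.2.2).ne')
    hbody.2.1.measure_lt_top.ne) _)) hb

end Vale.Agent.P237
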