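import Vale.Agent.P237.Defs

/-!
Orthonormal splittings of `ℝ^(n+1)` into a line and a hyperplane, and the identity
`|K + [0,u]| = |K| + ‖u‖ |proj K|` for convex bodies.
-/

open MeasureTheory Set
open scoped RealInnerProductSpace Pointwise

namespace Vale.Agent.P237

/-- Euclidean space. -/
abbrev E (n : ℕ) := EuclideanSpace ℝ (Fin n)

/-- An orthonormal splitting of `ℝ^(n+1)` along the unit vector `ν`. -/
structure Frame {n : ℕ} (ν : E (n + 1)) where
  S : (ℝ × E n) ≃L[ℝ] E (n + 1)
  mp : MeasurePreserving S volume volume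
  one : S (1, 0) = ν
  inn : ∀ t y s z, ⟪S (t, y), S (s, z)⟫ = t * s + ⟪y, z⟫

/-- The coordinate splitting. -/
noncomputable def consEquiv (n : ℕ) : (ℝ × E n) ≃ₗ[ℝ] E (n + 1) where
  toFun p := WithLp.toLp 2 (Fin.cons p.1 p.2.ofLp)
  map_add' p q := by
    ext i
    refine Fin.cases ?_ (fun j => ?_) i <;> simp
  map_smul' r p := by
    ext i
    refine Fin.cases ?_ (fun j => ?_) i <;> simp
  invFun z := (z.ofLp 0, WithLp.toLp 2 (Fin.tail z.ofLp))
  left_inv p := by simp
  right_inv z := by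
    ext i
    refine Fin.cases ?_ (fun j => ?_) i <;> simp [Fin.tail]

lemma consEquiv_mp (n : ℕ) : MeasurePreserving (consEquiv n) volume volume := by
  have h1 : MeasurePreserving (fun p : ℝ × E n => (p.1, p.2.ofLp)) volume volume := by
    rw [Measure.volume_eq_prod, Measure.volume_eq_prod]
    exact (MeasurePreserving.id volume).prod (PiLp.volume_preserving_ofLp _)
  have h2 := (volume_preserving_piFinSuccAbove (fun _ : Fin (n + 1) => ℝ) 0).symm
  have h3 : MeasurePreserving (fun p : ℝ × (Fin n → ℝ) => (Fin.cons p.1 p.2 : Fin (n + 1) → ℝ))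
      volume volume := by
    have e : ⇑(MeasurableEquiv.piFinSuccAbove (fun _ : Fin (n + 1) => ℝ) 0).symm =
        fun p : ℝ × (Fin n → ℝ) => (Fin.cons p.1 p.2 : Fin (n + 1) → ℝ) := by
      funext p
      simp [MeasurableEquiv.piFinSuccAbove, Fin.insertNthEquiv, Fin.insertNth_zero]
    rw [← e]
    exact h2
  exact (PiLp.volume_preserving_toLp _).comp (h3.comp h1)

lemma exists_frame {n : ℕ} {ν : E (n + 1)} (hν : ‖ν‖ = 1) : Nonempty (Frame ν) := by
  have ho : Orthonormal ℝ (({0} : Set (Fin (n + 1))).domRestrict fun _ => ν) :=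
    ⟨fun _ => hν, fun i j hij => absurd (Subsingleton.elim i j) hij⟩
  obtain ⟨b, hb⟩ := ho.exists_orthonormalBasis_extension_of_card_eq (by simp)
  have hb0 : b 0 = ν := hb 0 rfl
  refine ⟨⟨((consEquiv n).trans b.repr.symm.toLinearEquiv).toContinuousLinearEquiv, ?_, ?_, ?_⟩⟩
  · exact b.repr.symm.measurePreserving.comp (consEquiv_mp n)
  · have h : consEquiv n (1, 0) = EuclideanSpace.single 0 1 := by
      ext i
      refine Fin.cases ?_ (fun j => ?_) i <;> simp [consEquiv]
    show b.repr.symm (consEquiv n (1, 0)) = ν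
    rw [h, b.repr_symm_single, hb0]
  · intro t y s z
    show ⟪b.repr.symm (consEquiv n (t, y)), b.repr.symm (consEquiv n (s, z))⟫ = _
    rw [LinearIsometryEquiv.inner_map_map, PiLp.inner_apply, Fin.sum_univ_succ, PiLp.inner_apply]
    simp [consEquiv, mul_comm]

namespace Frame

variable {n : ℕ} {ν : E (n + 1)} (F : Frame ν)

include F in
lemma norm_axis : ‖ν‖ = 1 := by
  have h := F.inn 1 0 1 0
  rw [F.one, real_inner_self_eq_norm_sq] at h
  simp only [mul_one, inner_zero_left, add_zero] at h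
  nlinarith [norm_nonneg ν]

/-- The coordinates in the hyperplane. -/
noncomputable def proj (z : E (n + 1)) : E n := (F.S.symm z).2

lemma proj_S (t : ℝ) (y : E n) : F.proj (F.S (t, y)) = y := by simp [proj]

lemma continuous_proj : Continuous F.proj := continuous_snd.comp F.S.symm.continuous

lemma S_eq (t : ℝ) (y : E n) : F.S (t, y) = t • ν + F.S (0, y) := by
  have h : t • ν = F.S (t • ((1 : ℝ), (0 : E n))) := by rw [map_smul, F.one]
  rw [h, ← map_add]; simp

lemma inn_axis (y : E n) : ⟪ν, F.S (0, y)⟫ = 0 := by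
  have h := F.inn 1 0 0 y
  rw [F.one] at h
  simpa using h

lemma norm_hyper (y : E n) : ‖F.S (0, y)‖ = ‖y‖ := by
  have h := F.inn 0 y 0 y
  simp only [real_inner_self_eq_norm_sq, mul_zero, zero_add] at h
  exact (sq_eq_sq₀ (norm_nonneg _) (norm_nonneg _)).1 h

/-- The volume of the projection along `ν` is the volume of the coordinate image. -/
lemma volume_orth_image (K : Set (E (n + 1))) {c : ℝ} (hc : c ≠ 0) :
    volume ((ℝ ∙ (c • ν))ᗮ.orthogonalProjectionOnto '' K) = volume (F.proj '' K) := by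
  set U := (ℝ ∙ (c • ν))ᗮ with hU
  have hmem : ∀ y, F.S (0, y) ∈ U := fun y => by
    rw [hU, Submodule.mem_orthogonal_singleton_iff_inner_right, inner_smul_left, F.inn_axis,
      mul_zero]
  let L : E n →ₗᵢ[ℝ] U :=
    { toFun := fun y => ⟨F.S (0, y), hmem y⟩
      map_add' := fun a b => by ext1; simp [← map_add]
      map_smul' := fun r a => by ext1; simp [← map_smul]
      norm_map' := fun y => F.norm_hyper y }
  have hP : ∀ z, U.orthogonalProjectionOnto z = L (F.proj z) := by
    intro z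
    apply Subtype.ext
    rw [← Submodule.starProjection_apply]
    refine Submodule.eq_starProjection_of_mem_orthogonal' (hmem _)
      (z := (F.S.symm z).1 • ν) ?_ ?_
    · rw [hU, Submodule.orthogonal_orthogonal, Submodule.mem_span_singleton]
      exact ⟨(F.S.symm z).1 / c, by rw [smul_smul, div_mul_cancel₀ _ hc]⟩
    · show z = F.S (0, (F.S.symm z).2) + (F.S.symm z).1 • ν
      exact ((F.S.apply_symm_apply z).symm.trans (F.S_eq _ _)).trans (add_comm _ _)
  have hsurj : Function.Surjective L := by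
    intro w
    refine ⟨F.proj w, ?_⟩
    rw [← hP, Submodule.orthogonalProjectionOnto_mem_subspace_eq_self]
  let e := LinearIsometryEquiv.ofSurjective L hsurj
  have himg : U.orthogonalProjectionOnto '' K = e '' (F.proj '' K) := by
    rw [image_image]; exact image_congr fun z _ => hP z
  rw [himg, LinearIsometryEquiv.image_eq_preimage_symm]
  exact (LinearIsometryEquiv.measurePreserving e.symm).measure_preimage_emb
    e.symm.toHomeomorph.measurableEmbedding _

lemma projVol_eq (K : Set (E (n + 1))) (c : ℝ) :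
    projVol K (c • ν) = |c| * (volume (F.proj '' K)).toReal := by
  rcases eq_or_ne c 0 with rfl | hc
  · simp [projVol]
  · rw [projVol, F.volume_orth_image K hc, norm_smul, F.norm_axis, mul_one, Real.norm_eq_abs]

end Frame

/-- `K + [0, u]`. -/
def addSeg {V : Type*} [AddCommGroup V] [Module ℝ V] (K : Set V) (u : V) : Set V :=
  (fun p : V × ℝ => p.1 + p.2 • u) '' (K ×ˢ Icc (0 : ℝ) 1)

lemma mem_addSeg {V : Type*} [AddCommGroup V] [Module ℝ V] {K : Set V} {u z : V} :
    z ∈ addSeg K u ↔ ∃ k ∈ K, ∃ s ∈ Icc (0 : ℝ) 1, k + s • u = z := by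
  simp [addSeg, and_assoc]

lemma isCompact_addSeg {V : Type*} [AddCommGroup V] [Module ℝ V] [TopologicalSpace V]
    [ContinuousAdd V] [ContinuousSMul ℝ V] {K : Set V} (hK : IsCompact K) (u : V) :
    IsCompact (addSeg K u) :=
  (hK.prod isCompact_Icc).image
    (continuous_fst.add (continuous_snd.smul continuous_const))

lemma addSeg_zero {V : Type*} [AddCommGroup V] [Module ℝ V] (K : Set V) :
    addSeg K (0 : V) = K := by
  ext z; simp only [mem_addSeg, smul_zero, add_zero]
  exact ⟨fun ⟨k, hk, _, _, e⟩ => e ▸ hk, fun h => ⟨z, h, 0, by simp, rfl⟩⟩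

/-- Thickening a convex set along the first coordinate. -/
lemma volume_addSeg_prod {n : ℕ} {A : Set (ℝ × E n)} (hA : IsCompact A) (hAc : Convex ℝ A)
    {ℓ : ℝ} (hℓ : 0 ≤ ℓ) :
    volume (addSeg A (ℓ, (0 : E n))) = volume A + ENNReal.ofReal ℓ * volume (Prod.snd '' A) := by
  have hB := isCompact_addSeg hA (ℓ, (0 : E n))
  have hP : MeasurableSet (Prod.snd '' A) := (hA.image continuous_snd).measurableSet
  rw [Measure.volume_eq_prod, Measure.prod_apply_symm hB.measurableSet,
    Measure.prod_apply_symm hA.measurableSet, ← setLIntegral_const,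
    ← lintegral_indicator hP, ← lintegral_add_left (measurable_measure_prodMk_right hA.measurableSet)]
  refine lintegral_congr fun y => ?_
  have hpre : (fun x => ((x, y) : ℝ × E n)) ⁻¹' addSeg A (ℓ, 0) =
      (fun p : ℝ × ℝ => p.1 + p.2 * ℓ) '' (((fun x => (x, y)) ⁻¹' A) ×ˢ Icc (0 : ℝ) 1) := by
    ext x
    simp only [mem_preimage, mem_addSeg, mem_image, mem_prod, Prod.exists, Prod.smul_mk,
      smul_zero, smul_eq_mul, Prod.mk_add_mk, Prod.mk.injEq, add_zero]
    constructor
    · rintro ⟨a, b, hab, s, hs, rfl, rfl⟩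
      exact ⟨a, s, ⟨hab, hs⟩, rfl⟩
    · rintro ⟨a, s, ⟨hab, hs⟩, rfl⟩
      exact ⟨a, y, hab, s, hs, rfl, rfl⟩
  rw [hpre]
  set T := (fun x => ((x, y) : ℝ × E n)) ⁻¹' A with hT
  rcases T.eq_empty_or_nonempty with hTe | hTn
  · have hy : y ∉ Prod.snd '' A := by
      rintro ⟨⟨x, y'⟩, hxy, rfl⟩
      exact (hTe ▸ (show x ∈ T from hxy) : x ∈ (∅ : Set ℝ))
    simp [hTe, indicator_of_notMem hy]
  · have hTc : IsCompact T := by
      refine (hA.image continuous_fst).of_isClosed_subset
        (hA.isClosed.preimage (continuous_id.prodMk continuous_const)) ?_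
      exact fun x hx => ⟨(x, y), hx, rfl⟩
    have hTconv : Convex ℝ T := fun a ha b hb p q hp hq hpq => by
      show (p • a + q • b, y) ∈ A
      have := hAc ha hb hp hq hpq
      rwa [Prod.smul_mk, Prod.smul_mk, Prod.mk_add_mk, ← add_smul, hpq, one_smul] at this
    obtain ⟨a, ha⟩ : ∃ a, a = sInf T := ⟨_, rfl⟩
    obtain ⟨b, hb⟩ : ∃ b, b = sSup T := ⟨_, rfl⟩
    have hI : T = Icc a b := by
      rw [ha, hb]; exact eq_Icc_of_connected_compact (hTconv.isConnected hTn) hTc
    have hab : a ≤ b := nonempty_Icc.1 (hI ▸ hTn)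
    have hy : y ∈ Prod.snd '' A := by
      obtain ⟨x, hx⟩ := hTn
      exact ⟨(x, y), hx, rfl⟩
    have hsum : (fun p : ℝ × ℝ => p.1 + p.2 * ℓ) '' (T ×ˢ Icc (0 : ℝ) 1) = Icc a (b + ℓ) := by
      rw [hI]
      ext x
      simp only [mem_image, mem_prod, mem_Icc, Prod.exists]
      constructor
      · rintro ⟨p, s, ⟨⟨h1, h2⟩, h3, h4⟩, rfl⟩
        constructor <;> nlinarith
      · rintro ⟨h1, h2⟩
        rcases le_or_gt x b with h | h
        · exact ⟨x, 0, ⟨⟨h1, h⟩, by norm_num, by norm_num⟩, by ring⟩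
        · have : 0 < ℓ := by linarith
          exact ⟨b, (x - b) / ℓ, ⟨⟨hab, le_rfl⟩, div_nonneg (by linarith) hℓ,
            (div_le_one this).2 (by linarith)⟩, by rw [div_mul_cancel₀ _ this.ne']; ring⟩
    rw [hsum, indicator_of_mem hy, hI, Real.volume_Icc, Real.volume_Icc,
      ← ENNReal.ofReal_add (by linarith) hℓ]
    congr 1; ring

/-- A convex body. -/
structure Body {n : ℕ} (K : Set (E n)) : Prop where
  conv : Convex ℝ K
  cpt : IsCompact K

/-- `|K + [0, u]| = |K| + ‖u‖ |proj K|`. -/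
theorem volume_addSeg {n : ℕ} {K : Set (E (n + 1))} (hK : Body K) (u : E (n + 1)) :
    (volume (addSeg K u)).toReal = (volume K).toReal + projVol K u := by
  rcases eq_or_ne u 0 with rfl | hu
  · simp [addSeg_zero, projVol]
  obtain ⟨F⟩ := exists_frame (ν := ‖u‖⁻¹ • u) (norm_smul_inv_norm hu)
  have hu' : u = ‖u‖ • (‖u‖⁻¹ • u) := by
    rw [smul_smul, mul_inv_cancel₀ (norm_ne_zero_iff.2 hu), one_smul]
  have hA : IsCompact (F.S ⁻¹' K) := F.S.toHomeomorph.isCompact_preimage.2 hK.cpt
  have hAc : Convex ℝ (F.S ⁻¹' K) := hK.conv.linear_preimage F.S.toLinearEquiv.toLinearMap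
  have hSu : F.S (‖u‖, 0) = u := by
    rw [F.S_eq, ← Prod.zero_eq_mk, map_zero, add_zero, ← hu']
  have hpre : F.S ⁻¹' addSeg K u = addSeg (F.S ⁻¹' K) (‖u‖, (0 : E n)) := by
    ext p
    simp only [mem_preimage, mem_addSeg]
    constructor
    · rintro ⟨k, hk, s, hs, e⟩
      refine ⟨F.S.symm k, by simpa using hk, s, hs, F.S.injective ?_⟩
      rw [map_add, map_smul, hSu, F.S.apply_symm_apply, e]
    · rintro ⟨q, hq, s, hs, rfl⟩
      exact ⟨F.S q, hq, s, hs, by rw [map_add, map_smul, hSu]⟩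
  have h1 := F.mp.measure_preimage (isCompact_addSeg hK.cpt u).measurableSet.nullMeasurableSet
  have h2 := F.mp.measure_preimage hK.cpt.measurableSet.nullMeasurableSet
  have h3 := volume_addSeg_prod hA hAc (norm_nonneg u)
  rw [← hpre, h1, h2] at h3
  have h4 : Prod.snd '' (F.S ⁻¹' K) = F.proj '' K := by
    ext y
    simp only [mem_image, mem_preimage]
    exact ⟨fun ⟨p, hp, e⟩ => ⟨F.S p, hp, by simp [Frame.proj, e]⟩,
      fun ⟨z, hz, e⟩ => ⟨F.S.symm z, by simpa using hz, e⟩⟩
  rw [h4] at h3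
  rw [h3, ENNReal.toReal_add hK.cpt.measure_lt_top.ne
    (ENNReal.mul_ne_top ENNReal.ofReal_ne_top
      (hK.cpt.image F.continuous_proj).measure_lt_top.ne),
    ENNReal.toReal_mul, ENNReal.toReal_ofReal (norm_nonneg u)]
  congr 1
  conv_rhs => rw [hu', F.projVol_eq, abs_of_nonneg (norm_nonneg u)]

end Vale.Agent.P237
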