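import Vale.Agent.P237.BM

/-!
The gauge of a convex body and the functional `J K phi = ∫ phi dS_K`, written as
`(1/n!) ∫ exp (-gauge) phi (∇ gauge)`.
-/

open MeasureTheory Set Filter Topology Real
open scoped RealInnerProductSpace Pointwise ENNReal Nat NNReal

namespace Vale.Agent.P237

variable {n N : ℕ}

lemma projVol_nonneg (K : Set (E N)) (u : E N) : 0 ≤ projVol K u :=
  mul_nonneg (norm_nonneg _) ENNReal.toReal_nonneg

lemma projVol_zero (K : Set (E N)) : projVol K 0 = 0 := by simp [projVol]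

lemma projVol_smul (K : Set (E N)) (c : ℝ) (u : E N) : projVol K (c • u) = |c| * projVol K u := by
  rcases eq_or_ne c 0 with rfl | hc
  · simp [projVol]
  have h : (ℝ ∙ (c • u)) = (ℝ ∙ u) := Submodule.span_singleton_smul_eq (isUnit_iff_ne_zero.2 hc) u
  have key : ∀ U V : Submodule ℝ (E N), U = V →
      volume (Uᗮ.orthogonalProjectionOnto '' K) = volume (Vᗮ.orthogonalProjectionOnto '' K) := by
    rintro U V rfl; rfl
  rw [projVol, projVol, key _ _ h, norm_smul, Real.norm_eq_abs, mul_assoc]

lemma projVol_neg (K : Set (E N)) (u : E N) : projVol K (-u) = projVol K u := by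
  rw [show -u = (-1 : ℝ) • u by simp, projVol_smul]; simp

lemma Body.smul {K : Set (E N)} (hK : Body K) (r : ℝ) : Body (r • K) :=
  ⟨hK.conv.smul r, hK.cpt.smul r⟩

lemma projVol_smul_set {K : Set (E (n + 1))} (hK : Body K) {r : ℝ} (hr : 0 < r) (u : E (n + 1)) :
    projVol (r • K) u = r ^ n * projVol K u := by
  have h1 := volume_addSeg (hK.smul r) u
  have h2 := volume_addSeg hK (r⁻¹ • u)
  have h3 : addSeg (r • K) u = r • addSeg K (r⁻¹ • u) := by
    ext z
    constructor
    · intro h
      obtain ⟨k, hk, s, hs, rfl⟩ := mem_addSeg.1 h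
      obtain ⟨k', hk', rfl⟩ := hk
      refine ⟨k' + s • r⁻¹ • u, mem_addSeg.2 ⟨k', hk', s, hs, rfl⟩, ?_⟩
      show r • (k' + s • r⁻¹ • u) = _
      rw [smul_add, smul_comm r s, smul_inv_smul₀ hr.ne']
    · rintro ⟨w, hw, rfl⟩
      obtain ⟨k, hk, s, hs, rfl⟩ := mem_addSeg.1 hw
      refine mem_addSeg.2 ⟨r • k, smul_mem_smul_set hk, s, hs, ?_⟩
      show _ = r • (k + s • r⁻¹ • u)
      rw [smul_add, smul_comm r s, smul_inv_smul₀ hr.ne']
  rw [h3, volume_smul hr.le, volume_smul hr.le, h2, projVol_smul, abs_of_pos (inv_pos.2 hr),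
    pow_succ] at h1
  have h4 : r ^ n * r * (r⁻¹ * projVol K u) = r ^ n * projVol K u := by
    rw [mul_assoc, ← mul_assoc r, mul_inv_cancel₀ hr.ne', one_mul]
  linarith

/-- A convex body with the origin inside. -/
structure Cen (K : Set (E N)) : Prop extends Body K where
  int : (0 : E N) ∈ interior K

/-- The gradient of the gauge. -/
noncomputable def gr (K : Set (E N)) (x : E N) : E N :=
  (InnerProductSpace.toDual ℝ (E N)).symm (fderiv ℝ (gauge K) x)

/-- Integration against the surface area measure. -/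
noncomputable def J (K : Set (E (n + 1))) (phi : E (n + 1) → ℝ) : ℝ :=
  (∫ x, exp (-gauge K x) * phi (gr K x)) / n !

lemma inner_gr (K : Set (E N)) (x u : E N) : ⟪gr K x, u⟫ = fderiv ℝ (gauge K) x u :=
  InnerProductSpace.toDual_symm_apply

lemma measurable_gr (K : Set (E N)) : Measurable (gr K) :=
  (InnerProductSpace.toDual ℝ (E N)).symm.continuous.measurable.comp (measurable_fderiv ℝ _)

lemma layer {h : E N → ℝ} (hh : Measurable h) :
    ∫⁻ x, ENNReal.ofReal (exp (-h x)) =
      ∫⁻ r : ℝ, ENNReal.ofReal (exp (-r)) * volume {x | h x ≤ r} := by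
  have hS : MeasurableSet {p : E N × ℝ | h p.1 ≤ p.2} :=
    measurableSet_le (hh.comp measurable_fst) measurable_snd
  have h1 : ∀ a : ℝ, ENNReal.ofReal (exp (-a)) =
      ∫⁻ r, (Ici a).indicator (fun r => ENNReal.ofReal (exp (-r))) r := by
    intro a
    rw [lintegral_indicator measurableSet_Ici, setLIntegral_congr Ioi_ae_eq_Ici.symm,
      ← ofReal_integral_eq_lintegral_ofReal, integral_exp_neg_Ioi]
    · have := exp_neg_integrableOn_Ioi a one_pos
      simp only [neg_mul, one_mul] at this
      exact this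
    · exact Eventually.of_forall fun r => (exp_pos _).le
  calc ∫⁻ x, ENNReal.ofReal (exp (-h x))
      = ∫⁻ x, ∫⁻ r, {p : E N × ℝ | h p.1 ≤ p.2}.indicator
          (fun p => ENNReal.ofReal (exp (-p.2))) (x, r) := by
        refine lintegral_congr fun x => ?_
        rw [h1]; refine lintegral_congr fun r => ?_
        by_cases hr : h x ≤ r <;> simp [indicator, hr]
    _ = ∫⁻ r, ∫⁻ x, {p : E N × ℝ | h p.1 ≤ p.2}.indicator
          (fun p => ENNReal.ofReal (exp (-p.2))) (x, r) :=
        lintegral_lintegral_swap ((((measurable_snd.neg).exp).ennreal_ofReal).indicator hS).aemeasurable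
    _ = _ := by
        refine lintegral_congr fun r => ?_
        rw [← lintegral_indicator_const (measurableSet_le hh measurable_const)]
        refine lintegral_congr fun x => ?_
        by_cases hr : h x ≤ r <;> simp [indicator, hr]

lemma mom (k : ℕ) :
    ∫⁻ r in Ioi (0 : ℝ), ENNReal.ofReal (exp (-r) * r ^ k) = ENNReal.ofReal (k ! : ℝ) := by
  have h1 := Real.GammaIntegral_convergent (s := k + 1) (by positivity)
  have h2 := Real.Gamma_eq_integral (s := k + 1) (by positivity)
  simp only [add_sub_cancel_right, Real.rpow_natCast] at h1 h2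
  rw [Real.Gamma_nat_eq_factorial] at h2
  rw [← ofReal_integral_eq_lintegral_ofReal h1, ← h2]
  exact (ae_restrict_iff' measurableSet_Ioi).2 (Eventually.of_forall fun r hr =>
    mul_nonneg (exp_pos _).le (pow_nonneg (le_of_lt hr) _))

lemma bernoulli (m : ℕ) {x y : ℝ} (hx : 0 ≤ x) (hy : 0 ≤ y) :
    x ^ (m + 1) + (m + 1 : ℝ) * x ^ m * y ≤ (x + y) ^ (m + 1) := by
  induction m with
  | zero => simp
  | succ m ih =>
    have h3 := mul_le_mul_of_nonneg_right ih (add_nonneg hx hy)
    have h4 : 0 ≤ (m + 1 : ℝ) * x ^ m * y * y := by positivity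
    rw [pow_succ (x + y) (m + 1)]
    push_cast
    refine le_trans ?_ h3
    rw [pow_succ x (m + 1), pow_succ x m]
    nlinarith

namespace Cen

variable {K : Set (E N)} (hK : Cen K)
include hK

lemma nhds_zero : K ∈ 𝓝 (0 : E N) := mem_interior_iff_mem_nhds.1 hK.int

lemma absorbs : Absorbent ℝ K := absorbent_nhds_zero hK.nhds_zero

lemma continuous_g : Continuous (gauge K) := continuous_gauge hK.conv hK.nhds_zero

lemma g_add (x y : E N) : gauge K (x + y) ≤ gauge K x + gauge K y :=
  gauge_add_le hK.conv hK.absorbs x y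

lemma g_line (x y : E N) {t : ℝ} (ht : 0 ≤ t) (ht1 : t ≤ 1) :
    gauge K ((1 - t) • x + t • y) ≤ (1 - t) * gauge K x + t * gauge K y := by
  refine (hK.g_add _ _).trans (le_of_eq ?_)
  rw [gauge_smul_of_nonneg (sub_nonneg.2 ht1), gauge_smul_of_nonneg ht]
  rfl

lemma level {r : ℝ} (hr : 0 < r) : {x | gauge K x ≤ r} = r • K := by
  ext x
  rw [mem_smul_set_iff_inv_smul_mem₀ hr.ne', mem_ofPred_eq]
  conv_rhs => rw [← hK.cpt.isClosed.closure_eq]
  rw [← gauge_le_one_iff_mem_closure hK.conv hK.nhds_zero,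
    gauge_smul_of_nonneg (inv_nonneg.2 hr.le), smul_eq_mul, inv_mul_le_one₀ hr]

lemma exists_lip : ∃ C : ℝ≥0, LipschitzWith C (gauge K) := hK.conv.lipschitz_gauge hK.nhds_zero

lemma exists_bound : ∃ C : ℝ, 0 ≤ C ∧ ∀ x, ‖gr K x‖ ≤ C := by
  obtain ⟨C, hC⟩ := hK.exists_lip
  refine ⟨C, C.coe_nonneg, fun x => ?_⟩
  rw [gr, LinearIsometryEquiv.norm_map]
  exact norm_fderiv_le_of_lipschitz ℝ hC

lemma ae_diff : ∀ᵐ x : E N, DifferentiableAt ℝ (gauge K) x := by
  obtain ⟨C, hC⟩ := hK.exists_lip
  exact hC.ae_differentiableAt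

omit hK in
lemma slope_tendsto {x : E N} (hx : DifferentiableAt ℝ (gauge K) x) (v : E N) :
    Tendsto (fun t : ℝ => (gauge K (x + t • v) - gauge K x) / t) (𝓝[>] 0) (𝓝 ⟪gr K x, v⟫) := by
  have h := (hx.hasFDerivAt.hasLineDerivAt v).tendsto_slope_zero
  rw [inner_gr]
  refine (h.mono_left (nhdsWithin_mono _ fun t ht => ne_of_gt ht)).congr fun t => ?_
  rw [smul_eq_mul, inv_mul_eq_div]

omit hK in
lemma deriv_le {x : E N} (hx : DifferentiableAt ℝ (gauge K) x) {v : E N} {a : ℝ}
    (h : ∀ t ∈ Ioc (0 : ℝ) 1, gauge K (x + t • v) ≤ gauge K x + t * a) : ⟪gr K x, v⟫ ≤ a := by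
  refine le_of_tendsto (slope_tendsto hx v) ?_
  filter_upwards [Ioc_mem_nhdsGT (zero_lt_one (α := ℝ))] with t ht
  rw [div_le_iff₀ ht.1]
  linarith [h t ht]

lemma gr_le (x y : E N) : ⟪gr K x, y⟫ ≤ gauge K y := by
  by_cases hx : DifferentiableAt ℝ (gauge K) x
  · refine deriv_le hx fun t ht => (hK.g_add _ _).trans (le_of_eq ?_)
    rw [gauge_smul_of_nonneg ht.1.le, smul_eq_mul]
  · rw [inner_gr, fderiv_zero_of_not_differentiableAt hx]
    exact gauge_nonneg _

lemma gr_le_one (x : E N) {y : E N} (hy : y ∈ K) : ⟪gr K x, y⟫ ≤ 1 :=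
  (hK.gr_le x y).trans (gauge_le_one_of_mem hy)

lemma subgrad {x : E N} (hx : DifferentiableAt ℝ (gauge K) x) (w : E N) :
    gauge K x - ⟪gr K x, w⟫ ≤ gauge K (x - w) := by
  have h : ⟪gr K x, -w⟫ ≤ gauge K (x - w) - gauge K x := by
    refine deriv_le hx fun t ht => ?_
    rw [show x + t • -w = (1 - t) • x + t • (x - w) by module]
    refine (hK.g_line _ _ ht.1.le ht.2).trans (le_of_eq ?_)
    ring
  rw [inner_neg_right] at h
  linarith

lemma lintegral_exp :
    ∫⁻ x, ENNReal.ofReal (exp (-gauge K x)) = ENNReal.ofReal (N ! * (volume K).toReal) := by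
  rw [layer hK.continuous_g.measurable, ← lintegral_add_compl _ (measurableSet_Ioi (a := (0 : ℝ))),
    compl_Ioi]
  have h0 : ∫⁻ r in Iic (0 : ℝ), ENNReal.ofReal (exp (-r)) * volume {x | gauge K x ≤ r} = 0 := by
    rw [setLIntegral_congr Iio_ae_eq_Iic.symm,
      setLIntegral_congr_fun measurableSet_Iio (g := fun _ => (0 : ℝ≥0∞)) fun r hr => ?_]
    · simp
    have : {x | gauge K x ≤ r} = ∅ :=
      eq_empty_iff_forall_notMem.2 fun x hx => by
        have := gauge_nonneg (s := K) x
        simp only [mem_ofPred_eq, mem_Iio] at hx hr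
        linarith
    simp [this]
  rw [h0, add_zero, setLIntegral_congr_fun measurableSet_Ioi
    (g := fun r => ENNReal.ofReal (exp (-r) * r ^ N) * volume K) fun r hr => ?_,
    lintegral_mul_const' _ _ hK.cpt.measure_lt_top.ne, mom,
    ENNReal.ofReal_mul (by positivity), ENNReal.ofReal_toReal hK.cpt.measure_lt_top.ne]
  rw [hK.level hr, Measure.addHaar_smul_of_nonneg _ (le_of_lt hr), finrank_euclideanSpace_fin,
    ← mul_assoc, ← ENNReal.ofReal_mul (exp_pos _).le]

lemma integrable_exp : Integrable fun x => exp (-gauge K x) := by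
  refine ⟨(hK.continuous_g.neg.rexp).aestronglyMeasurable, ?_⟩
  rw [hasFiniteIntegral_iff_ofReal (Eventually.of_forall fun x => (exp_pos _).le), hK.lintegral_exp]
  exact ENNReal.ofReal_lt_top

lemma integral_exp : ∫ x, exp (-gauge K x) = N ! * (volume K).toReal := by
  rw [integral_eq_lintegral_of_nonneg_ae (f := fun x => exp (-gauge K x))
    (Eventually.of_forall fun x => (exp_pos _).le)
    hK.continuous_g.neg.rexp.aestronglyMeasurable, hK.lintegral_exp,
    ENNReal.toReal_ofReal (by positivity)]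

lemma bound_comp {phi : E N → ℝ} (hphi : Continuous phi) : ∃ B, 0 ≤ B ∧ ∀ x, |phi (gr K x)| ≤ B := by
  obtain ⟨C, hC0, hC⟩ := hK.exists_bound
  obtain ⟨B, hB⟩ := (isCompact_closedBall (0 : E N) C).exists_bound_of_continuousOn hphi.continuousOn
  exact ⟨B, (norm_nonneg _).trans (hB 0 (Metric.mem_closedBall_self hC0)),
    fun x => hB _ (mem_closedBall_zero_iff.2 (hC x))⟩

lemma integrable_comp {phi : E N → ℝ} (hphi : Continuous phi) :
    Integrable fun x => exp (-gauge K x) * phi (gr K x) := by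
  obtain ⟨B, _, hB⟩ := hK.bound_comp hphi
  exact hK.integrable_exp.mul_bdd (hphi.measurable.comp (measurable_gr K)).aestronglyMeasurable
    (c := B) (Eventually.of_forall hB)

end Cen

/-- Minkowski's first inequality. -/
theorem mink {K L : Set (E (n + 1))} (hK : Cen K) (hL : IsCompact L) (hL0 : L.Nonempty)
    {phi : E (n + 1) → ℝ} (hphi : Continuous phi) (hphiL : ∀ l ∈ L, ∀ v, ⟪v, l⟫ ≤ phi v) {a b : ℝ}
    (ha : 0 ≤ a) (hb : 0 ≤ b) (haK : a ^ (n + 1) = (volume K).toReal)
    (hbL : b ^ (n + 1) ≤ (volume L).toReal) : (n + 1 : ℝ) * a ^ n * b ≤ J K phi := by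
  obtain ⟨B, hB0, hB⟩ := hK.bound_comp hphi
  set I := ∫ x, exp (-gauge K x) * phi (gr K x) with hI
  have hint := hK.integrable_comp hphi
  have key : ∀ t : ℝ, 0 < t → t * B ≤ 1 →
      (n + 1) ! * a ^ (n + 1) + t * ((n + 1) * a ^ n * b * n !) ≤
        (n + 1) ! * a ^ (n + 1) + t * I + t ^ 2 * B ^ 2 * ((n + 1) ! * a ^ (n + 1)) := by
    intro t ht htB
    set h := fun x => gauge K x - t * phi (gr K x) with hh
    have hhm : Measurable h :=
      hK.continuous_g.measurable.sub ((hphi.measurable.comp (measurable_gr K)).const_mul t)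
    have hlow : ENNReal.ofReal ((n + 1) ! * a ^ (n + 1) + t * ((n + 1) * a ^ n * b * n !)) ≤
        ∫⁻ x, ENNReal.ofReal (exp (-h x)) := by
      rw [layer hhm]
      refine le_trans ?_ (setLIntegral_le_lintegral (Ioi (0 : ℝ)) _)
      have e : ENNReal.ofReal ((n + 1) ! * a ^ (n + 1) + t * ((n + 1) * a ^ n * b * n !)) =
          ∫⁻ r in Ioi (0 : ℝ), (ENNReal.ofReal (exp (-r) * r ^ (n + 1)) * ENNReal.ofReal (a ^ (n + 1))
            + ENNReal.ofReal (exp (-r) * r ^ n) * ENNReal.ofReal (t * ((n + 1) * a ^ n * b))) := by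
        rw [lintegral_add_left (by fun_prop), lintegral_mul_const _ (by fun_prop),
          lintegral_mul_const _ (by fun_prop), mom, mom, ← ENNReal.ofReal_mul (by positivity),
          ← ENNReal.ofReal_mul (by positivity), ← ENNReal.ofReal_add (by positivity) (by positivity)]
        congr 1; ring
      rw [e]
      refine setLIntegral_mono_ae' measurableSet_Ioi (Eventually.of_forall fun r (hr : 0 < r) => ?_)
      rw [← ENNReal.ofReal_mul (by positivity), ← ENNReal.ofReal_mul (by positivity),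
        ← ENNReal.ofReal_add (by positivity) (by positivity)]
      have hsum : (r * a + t * b) ^ (n + 1) ≤ (volume (r • K + t • L)).toReal := by
        refine bm (hK.cpt.smul r) (hL.smul t) (Set.Nonempty.smul_set ⟨0, interior_subset hK.int⟩)
          hL0.smul_set (by positivity) (by positivity) ?_ ?_
        · rw [volume_smul hr.le, mul_pow, haK]
        · rw [volume_smul ht.le, mul_pow]
          exact mul_le_mul_of_nonneg_left hbL (by positivity)
      have hbern : (r * a) ^ (n + 1) + (n + 1 : ℝ) * (r * a) ^ n * (t * b) ≤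
          (r * a + t * b) ^ (n + 1) := bernoulli n (by positivity) (by positivity)
      have hle : exp (-r) * r ^ (n + 1) * a ^ (n + 1) +
          exp (-r) * r ^ n * (t * ((n + 1) * a ^ n * b)) ≤
            exp (-r) * (volume (r • K + t • L)).toReal := by
        refine le_trans (le_of_eq ?_) (mul_le_mul_of_nonneg_left (hbern.trans hsum) (exp_pos _).le)
        ring
      refine (ENNReal.ofReal_le_ofReal hle).trans ?_
      rw [ENNReal.ofReal_mul (exp_pos _).le,
        ENNReal.ofReal_toReal ((hK.cpt.smul r).add (hL.smul t)).measure_lt_top.ne]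
      refine mul_le_mul' le_rfl (measure_mono_ae ?_)
      filter_upwards [hK.ae_diff] with x hx
      rintro ⟨k, hk, _, ⟨l, hl, rfl⟩, rfl⟩
      have h1 := hK.subgrad hx (t • l)
      rw [show k + t • l - t • l = k by abel, inner_smul_right] at h1
      have h2 : gauge K k ≤ r := gauge_le_of_mem hr.le hk
      have h3 := mul_le_mul_of_nonneg_left (hphiL l hl (gr K (k + t • l))) ht.le
      show gauge K _ - t * _ ≤ r
      linarith
    have hup : ∀ x, exp (-h x) ≤
        exp (-gauge K x) + t * (exp (-gauge K x) * phi (gr K x)) + t ^ 2 * B ^ 2 * exp (-gauge K x) := by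
      intro x
      have hz : |t * phi (gr K x)| ≤ 1 := by
        rw [abs_mul, abs_of_pos ht]
        exact (mul_le_mul_of_nonneg_left (hB x) ht.le).trans htB
      have h1 := (abs_le.1 (Real.abs_exp_sub_one_sub_id_le hz)).2
      have h2 : (t * phi (gr K x)) ^ 2 ≤ t ^ 2 * B ^ 2 := by
        rw [mul_pow]; exact mul_le_mul_of_nonneg_left (sq_le_sq' (abs_le.1 (hB x)).1 (abs_le.1 (hB x)).2)
          (sq_nonneg t)
      calc exp (-h x) = exp (-gauge K x) * exp (t * phi (gr K x)) := by
            rw [← exp_add]; congr 1; simp only [hh]; ring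
        _ ≤ exp (-gauge K x) * (1 + t * phi (gr K x) + t ^ 2 * B ^ 2) :=
            mul_le_mul_of_nonneg_left (by linarith) (exp_pos _).le
        _ = _ := by ring
    have hint2 : Integrable fun x => exp (-gauge K x) + t * (exp (-gauge K x) * phi (gr K x))
        + t ^ 2 * B ^ 2 * exp (-gauge K x) :=
      (hK.integrable_exp.add (hint.const_mul t)).add (hK.integrable_exp.const_mul _)
    have h1 := hlow.trans (lintegral_mono fun x => ENNReal.ofReal_le_ofReal (hup x))
    rw [← ofReal_integral_eq_lintegral_ofReal hint2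
      (Eventually.of_forall fun x => (exp_pos _).le.trans (hup x))] at h1
    have hI2 : ∫ x, (exp (-gauge K x) + t * (exp (-gauge K x) * phi (gr K x))
        + t ^ 2 * B ^ 2 * exp (-gauge K x)) =
        (n + 1) ! * a ^ (n + 1) + t * I + t ^ 2 * B ^ 2 * ((n + 1) ! * a ^ (n + 1)) := by
      rw [integral_add (hK.integrable_exp.fun_add (hint.const_mul t)) (hK.integrable_exp.const_mul _),
        integral_add hK.integrable_exp (hint.const_mul t), integral_const_mul, integral_const_mul,
        hK.integral_exp, haK]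
    rw [hI2] at h1
    have hpos : 0 < (n + 1) ! * a ^ (n + 1) + t * ((n + 1) * a ^ n * b * n !) ∨
        (n + 1) ! * a ^ (n + 1) + t * ((n + 1) * a ^ n * b * n !) = 0 :=
      lt_or_eq_of_le' (by positivity)
    have hnn : 0 ≤ (n + 1) ! * a ^ (n + 1) + t * I + t ^ 2 * B ^ 2 * ((n + 1) ! * a ^ (n + 1)) := by
      rw [← hI2]; exact integral_nonneg fun x => (exp_pos _).le.trans (hup x)
    exact (ENNReal.ofReal_le_ofReal_iff hnn).1 h1
  rw [J, le_div_iff₀ (by positivity), ← hI]
  set c := B ^ 2 * ((n + 1) ! * a ^ (n + 1)) with hc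
  have hlim : Tendsto (fun t : ℝ => I + t * c) (𝓝[>] 0) (𝓝 I) := by
    have : Continuous fun t : ℝ => I + t * c := by fun_prop
    simpa using (this.tendsto 0).mono_left nhdsWithin_le_nhds
  refine ge_of_tendsto hlim ?_
  have hB1 : (0 : ℝ) < 1 / (B + 1) := by positivity
  filter_upwards [Ioc_mem_nhdsGT hB1] with t ht
  have htB : t * B ≤ 1 := by
    have h1 := ht.2
    rw [le_div_iff₀ (by positivity)] at h1
    nlinarith [ht.1]
  have := key t ht.1 htB
  nlinarith [ht.1]

/-- `∫ ⟨u, ν⟩₊ dS = |proj K|`. -/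
theorem integral_posPart {K : Set (E (n + 1))} (hK : Cen K) (u : E (n + 1)) :
    ∫ x, exp (-gauge K x) * max ⟪gr K x, u⟫ 0 = n ! * projVol K u := by
  obtain ⟨B, hB0, hB⟩ := hK.bound_comp (phi := fun v => max ⟪v, u⟫ 0) (by fun_prop)
  set m : ℝ → E (n + 1) → ℝ := fun t x =>
    sInf ((fun s : ℝ => gauge K (x - s • t • u)) '' Icc 0 1) with hm
  have hg := hK.continuous_g
  have hmc : ∀ t, Continuous (m t) := fun t =>
    isCompact_Icc.continuous_sInf (f := fun x s => gauge K (x - s • t • u)) (by fun_prop)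
  have hmin : ∀ t x, ∃ s ∈ Icc (0 : ℝ) 1, m t x = gauge K (x - s • t • u) ∧
      ∀ s' ∈ Icc (0 : ℝ) 1, m t x ≤ gauge K (x - s' • t • u) := by
    intro t x
    have hne : (Icc (0 : ℝ) 1).Nonempty := ⟨0, by simp⟩
    obtain ⟨s, hs, e, h⟩ := isCompact_Icc.exists_sInf_image_eq_and_le hne
      (f := fun s : ℝ => gauge K (x - s • t • u)) (by fun_prop : Continuous _).continuousOn
    exact ⟨s, hs, e, fun s' hs' => e.trans_le (h s' hs')⟩
  have hint : ∀ t, 0 < t → Integrable (fun x => exp (-m t x)) ∧
      ∫ x, exp (-m t x) = (n + 1) ! * (volume K).toReal + t * (n ! * projVol K u) := by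
    intro t ht
    have hl : ∫⁻ x, ENNReal.ofReal (exp (-m t x)) =
        ENNReal.ofReal ((n + 1) ! * (volume K).toReal + t * (n ! * projVol K u)) := by
      rw [layer (hmc t).measurable, ← lintegral_add_compl _ (measurableSet_Ioi (a := (0 : ℝ))),
        compl_Ioi]
      have h0 : ∫⁻ r in Iic (0 : ℝ), ENNReal.ofReal (exp (-r)) * volume {x | m t x ≤ r} = 0 := by
        rw [setLIntegral_congr Iio_ae_eq_Iic.symm,
          setLIntegral_congr_fun measurableSet_Iio (g := fun _ => (0 : ℝ≥0∞)) fun r hr => ?_]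
        · simp
        have : {x | m t x ≤ r} = ∅ := eq_empty_iff_forall_notMem.2 fun x hx => by
          obtain ⟨s, _, e, -⟩ := hmin t x
          simp only [mem_ofPred_eq, mem_Iio] at hx hr
          have := gauge_nonneg (s := K) (x - s • t • u)
          linarith
        simp [this]
      rw [h0, add_zero, setLIntegral_congr_fun measurableSet_Ioi
        (g := fun r => ENNReal.ofReal (exp (-r) * r ^ (n + 1)) * ENNReal.ofReal (volume K).toReal
          + ENNReal.ofReal (exp (-r) * r ^ n) * ENNReal.ofReal (t * projVol K u))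
        fun r (hr : 0 < r) => ?_]
      · rw [lintegral_add_left (by fun_prop), lintegral_mul_const _ (by fun_prop),
          lintegral_mul_const _ (by fun_prop), mom, mom, ← ENNReal.ofReal_mul (by positivity),
          ← ENNReal.ofReal_mul (by positivity), ← ENNReal.ofReal_add (by positivity)
            (mul_nonneg (by positivity) (mul_nonneg ht.le (projVol_nonneg _ _)))]
        congr 1; ring
      have hset : {x | m t x ≤ r} = addSeg (r • K) (t • u) := by
        ext x
        rw [mem_ofPred_eq, mem_addSeg, ← hK.level hr]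
        obtain ⟨s, hs, e, h⟩ := hmin t x
        constructor
        · intro hx
          exact ⟨x - s • t • u, by rwa [mem_ofPred_eq, ← e], s, hs, by abel⟩
        · rintro ⟨k, hk, s', hs', rfl⟩
          exact (h s' hs').trans (by rwa [add_sub_cancel_right])
      have hv := volume_addSeg (hK.toBody.smul r) (t • u)
      rw [volume_smul hr.le, projVol_smul_set hK.toBody hr, projVol_smul, abs_of_pos ht] at hv
      beta_reduce
      rw [hset, ← ENNReal.ofReal_toReal (isCompact_addSeg (hK.cpt.smul r) _).measure_lt_top.ne, hv,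
        ← ENNReal.ofReal_mul (exp_pos _).le, ← ENNReal.ofReal_mul (by positivity),
        ← ENNReal.ofReal_mul (by positivity), ← ENNReal.ofReal_add (by positivity)
          (mul_nonneg (by positivity) (mul_nonneg ht.le (projVol_nonneg _ _)))]
      congr 1; ring
    have hi : Integrable (fun x => exp (-m t x)) := by
      refine ⟨(hmc t).neg.rexp.aestronglyMeasurable, ?_⟩
      rw [hasFiniteIntegral_iff_ofReal (Eventually.of_forall fun x => (exp_pos _).le), hl]
      exact ENNReal.ofReal_lt_top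
    refine ⟨hi, ?_⟩
    rw [integral_eq_lintegral_of_nonneg_ae (f := fun x => exp (-m t x))
      (Eventually.of_forall fun x => (exp_pos _).le)
      (hmc t).neg.rexp.aestronglyMeasurable, hl, ENNReal.toReal_ofReal]
    have := projVol_nonneg K u
    positivity
  set τ : ℕ → ℝ := fun k => 1 / ((k : ℝ) + 1) with hτ
  have hτp : ∀ k, 0 < τ k ∧ τ k ≤ 1 := fun k =>
    ⟨by positivity, (div_le_one (by positivity)).2 (by linarith [(Nat.cast_nonneg k : (0:ℝ) ≤ k)])⟩
  have hτ0 : Tendsto τ atTop (𝓝[>] 0) :=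
    tendsto_nhdsWithin_iff.2 ⟨tendsto_one_div_add_atTop_nhds_zero_nat,
      Eventually.of_forall fun k => (hτp k).1⟩
  have hF : ∀ k, ∫ x, (exp (-m (τ k) x) - exp (-gauge K x)) / τ k = n ! * projVol K u := by
    intro k
    obtain ⟨hi, he⟩ := hint _ (hτp k).1
    rw [integral_div, integral_sub hi hK.integrable_exp, he, hK.integral_exp, add_sub_cancel_left,
      mul_div_cancel_left₀ _ (hτp k).1.ne']
  -- the pointwise bounds of the difference quotient
  have hq : ∀ x, DifferentiableAt ℝ (gauge K) x → ∀ t, 0 < t →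
      max ((gauge K x - gauge K (x - t • u)) / t) 0 ≤ (gauge K x - m t x) / t ∧
      (gauge K x - m t x) / t ≤ max ⟪gr K x, u⟫ 0 := by
    intro x hx t ht
    obtain ⟨s, hs, e, h⟩ := hmin t x
    constructor
    · refine max_le (div_le_div_of_nonneg_right ?_ ht.le) (div_nonneg ?_ ht.le)
      · have := h 1 (by simp); rw [one_smul] at this; linarith
      · have := h 0 (by simp); rw [zero_smul, sub_zero] at this; linarith
    · rw [div_le_iff₀ ht, e]
      have h1 := hK.subgrad hx (s • t • u)
      rw [inner_smul_right, inner_smul_right] at h1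
      have h2 : s * (t * ⟪gr K x, u⟫) ≤ max ⟪gr K x, u⟫ 0 * t := by
        rcases le_or_gt ⟪gr K x, u⟫ 0 with h0 | h0
        · rw [max_eq_right h0, zero_mul]
          exact mul_nonpos_of_nonneg_of_nonpos hs.1 (mul_nonpos_of_nonneg_of_nonpos ht.le h0)
        · rw [max_eq_left h0.le]
          nlinarith [mul_le_mul_of_nonneg_right hs.2 (mul_nonneg ht.le h0.le)]
      linarith
  have hexp : ∀ z : ℝ, exp z - 1 ≤ z * exp z := by
    intro z
    have h1 := mul_le_mul_of_nonneg_left (Real.add_one_le_exp (-z)) (exp_pos z).le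
    rw [← exp_add, add_neg_cancel, exp_zero] at h1
    linarith
  have hsq : ∀ x, DifferentiableAt ℝ (gauge K) x → ∀ t, 0 < t →
      exp (-gauge K x) * max ((gauge K x - gauge K (x - t • u)) / t) 0 ≤
        (exp (-m t x) - exp (-gauge K x)) / t ∧
      (exp (-m t x) - exp (-gauge K x)) / t ≤
        exp (-gauge K x) * (max ⟪gr K x, u⟫ 0 * exp (t * max ⟪gr K x, u⟫ 0)) := by
    intro x hx t ht
    obtain ⟨h1, h2⟩ := hq x hx t ht
    set w := (gauge K x - m t x) / t with hw
    have hw0 : 0 ≤ w := le_trans (le_max_right _ _) h1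
    have e : (exp (-m t x) - exp (-gauge K x)) / t = exp (-gauge K x) * ((exp (t * w) - 1) / t) := by
      have : exp (-m t x) = exp (-gauge K x) * exp (t * w) := by
        rw [← exp_add]; congr 1; rw [hw]; field_simp; ring
      rw [this]; ring
    rw [e]
    refine ⟨mul_le_mul_of_nonneg_left (h1.trans ?_) (exp_pos _).le,
      mul_le_mul_of_nonneg_left (le_trans ?_ (mul_le_mul h2
        (exp_le_exp.2 (mul_le_mul_of_nonneg_left h2 ht.le)) (exp_pos _).le (le_max_right _ _)))
        (exp_pos _).le⟩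
    · rw [le_div_iff₀ ht]
      linarith [Real.add_one_le_exp (t * w)]
    · rw [div_le_iff₀ ht]
      linarith [hexp (t * w)]
  have hlim := tendsto_integral_of_dominated_convergence
    (F := fun k x => (exp (-m (τ k) x) - exp (-gauge K x)) / τ k)
    (f := fun x => exp (-gauge K x) * max ⟪gr K x, u⟫ 0)
    (fun x => exp (-gauge K x) * (B * exp B))
    (fun k => (((hmc _).neg.rexp.sub hg.neg.rexp).div_const _).aestronglyMeasurable)
    (hK.integrable_exp.mul_const _) ?_ ?_
  · simp only [hF] at hlim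
    exact tendsto_nhds_unique hlim tendsto_const_nhds
  · intro k
    filter_upwards [hK.ae_diff] with x hx
    obtain ⟨h1, h2⟩ := hsq x hx _ (hτp k).1
    have h0 := le_trans (mul_nonneg (exp_pos _).le (le_max_right _ _)) h1
    rw [Real.norm_of_nonneg h0]
    have hpB : max ⟪gr K x, u⟫ 0 ≤ B := le_trans (le_abs_self _) (hB x)
    refine h2.trans (mul_le_mul_of_nonneg_left (mul_le_mul hpB (exp_le_exp.2 ?_) (exp_pos _).le hB0)
      (exp_pos _).le)
    calc τ k * max ⟪gr K x, u⟫ 0 ≤ 1 * B :=
          mul_le_mul (hτp k).2 hpB (le_max_right _ _) zero_le_one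
      _ = B := one_mul B
  · filter_upwards [hK.ae_diff] with x hx
    refine Tendsto.comp (g := fun t => (exp (-m t x) - exp (-gauge K x)) / t) ?_ hτ0
    have hD : Tendsto (fun t : ℝ => (gauge K x - gauge K (x - t • u)) / t) (𝓝[>] 0)
        (𝓝 ⟪gr K x, u⟫) := by
      have := (Cen.slope_tendsto hx (-u)).neg
      rw [inner_neg_right, neg_neg] at this
      refine this.congr fun t => ?_
      rw [smul_neg, ← sub_eq_add_neg, ← neg_div, neg_sub]
    refine tendsto_of_tendsto_of_tendsto_of_le_of_le'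
      ((hD.max tendsto_const_nhds).const_mul (exp (-gauge K x))) ?_
      (eventually_nhdsWithin_of_forall fun t ht => (hsq x hx t ht).1)
      (eventually_nhdsWithin_of_forall fun t ht => (hsq x hx t ht).2)
    have h1 : Continuous fun t : ℝ =>
        exp (-gauge K x) * (max ⟪gr K x, u⟫ 0 * exp (t * max ⟪gr K x, u⟫ 0)) := by fun_prop
    simpa using (h1.tendsto 0).mono_left nhdsWithin_le_nhds

/-- `½ ∫ |⟨u, ν⟩| dS = |proj K|`. -/
theorem J_abs {K : Set (E (n + 1))} (hK : Cen K) (u : E (n + 1)) :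
    J K (fun v => |⟪v, u⟫|) = 2 * projVol K u := by
  have e : ∀ x, exp (-gauge K x) * |⟪gr K x, u⟫| =
      exp (-gauge K x) * max ⟪gr K x, u⟫ 0 + exp (-gauge K x) * max ⟪gr K x, -u⟫ 0 := by
    intro x
    rw [inner_neg_right, ← mul_add]
    congr 1
    rcases le_total 0 ⟪gr K x, u⟫ with h | h
    · rw [abs_of_nonneg h, max_eq_left h, max_eq_right (neg_nonpos.2 h), add_zero]
    · rw [abs_of_nonpos h, max_eq_right h, max_eq_left (neg_nonneg.2 h), zero_add]
  rw [J]
  simp only [e]
  rw [integral_add (hK.integrable_comp (phi := fun v => max ⟪v, u⟫ 0) (by fun_prop))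
    (hK.integrable_comp (phi := fun v => max ⟪v, -u⟫ 0) (by fun_prop)), integral_posPart hK,
    integral_posPart hK, projVol_neg]
  field_simp
  ring

lemma J_mono {K : Set (E (n + 1))} (hK : Cen K) {phi psi : E (n + 1) → ℝ} (hphi : Continuous phi)
    (hpsi : Continuous psi) (h : ∀ x, phi (gr K x) ≤ psi (gr K x)) : J K phi ≤ J K psi := by
  refine div_le_div_of_nonneg_right (integral_mono (hK.integrable_comp hphi) (hK.integrable_comp hpsi)
    fun x => mul_le_mul_of_nonneg_left (h x) (exp_pos _).le) (by positivity)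

lemma J_const {K : Set (E (n + 1))} (hK : Cen K) (r : ℝ) :
    J K (fun _ => r) = (n + 1 : ℝ) * (volume K).toReal * r := by
  rw [J, integral_mul_const, hK.integral_exp, Nat.factorial_succ]
  push_cast
  field_simp

end Vale.Agent.P237
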