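import Mathlib
import Vale.Agent.P262.Prekopa

/-!
Berwald's inequality for the moments of a concave function on an interval.
-/

open MeasureTheory Set Real
open scoped ENNReal

namespace Vale.Agent.P237

variable {a b : ℝ} {f : ℝ → ℝ}

/-- The measure of a super level set inside the interval. -/
noncomputable def levels (a b : ℝ) (f : ℝ → ℝ) (s : ℝ) : ℝ :=
  (volume ({t | s < f t} ∩ Icc a b)).toReal

lemma levels_le (hab : a ≤ b) (s : ℝ) : levels a b f s ≤ b - a := by
  refine (ENNReal.toReal_mono (measure_Icc_lt_top (μ := volume)).ne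
    (measure_mono inter_subset_right)).trans (le_of_eq ?_)
  rw [Real.volume_Icc, ENNReal.toReal_ofReal (by linarith)]

lemma levels_anti (f : ℝ → ℝ) : Antitone (levels a b f) := fun _ _ h =>
  ENNReal.toReal_mono (ne_top_of_le_ne_top (measure_Icc_lt_top (μ := volume)).ne
    (measure_mono inter_subset_right))
    (measure_mono (inter_subset_inter_left _ fun _ ht => lt_of_le_of_lt h ht))

lemma moment (hfm : Measurable f) (h0 : ∀ t ∈ Icc a b, 0 ≤ f t) {R : ℝ}
    (hR : ∀ t ∈ Icc a b, f t ≤ R) {q : ℕ} (hq : 0 < q) :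
    IntegrableOn (fun s => levels a b f s * s ^ (q - 1)) (Ioc 0 R) ∧
      ∫ t in Icc a b, f t ^ q = q * ∫ s in Ioc 0 R, levels a b f s * s ^ (q - 1) := by
  have hint : IntegrableOn (fun s => levels a b f s * s ^ (q - 1)) (Ioc 0 R) := by
    rcases lt_or_ge b a with hab | hab
    · simp [levels, Icc_eq_empty (not_le.2 hab)]
    refine Integrable.mono' (integrableOn_const (C := (b - a) * R ^ (q - 1)) measure_Ioc_lt_top.ne)
      ((levels_anti f).measurable.mul (measurable_id.pow_const _)).aestronglyMeasurable ?_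
    refine (ae_restrict_iff' measurableSet_Ioc).2 (Filter.Eventually.of_forall fun s hs => ?_)
    have : 0 ≤ levels a b f s := ENNReal.toReal_nonneg
    rw [Real.norm_of_nonneg (mul_nonneg this (pow_nonneg hs.1.le _))]
    exact mul_le_mul (levels_le hab s) (pow_le_pow_left₀ hs.1.le hs.2 _) (pow_nonneg hs.1.le _)
      (by linarith)
  refine ⟨hint, ?_⟩
  have h := lintegral_rpow_eq_lintegral_meas_lt_mul (volume.restrict (Icc a b)) (f := f)
    ((ae_restrict_iff' measurableSet_Icc).2 (Filter.Eventually.of_forall h0)) hfm.aemeasurable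
    (p := q) (by exact_mod_cast hq)
  have e : ((q : ℝ) - 1) = ((q - 1 : ℕ) : ℝ) := by rw [Nat.cast_sub hq]; simp
  simp only [e, Real.rpow_natCast] at h
  have h2 : ∫⁻ s in Ioi (0 : ℝ), (volume.restrict (Icc a b)) {t | s < f t} *
      ENNReal.ofReal (s ^ (q - 1)) =
      ∫⁻ s in Ioc 0 R, ENNReal.ofReal (levels a b f s * s ^ (q - 1)) := by
    rw [← lintegral_indicator measurableSet_Ioi, ← lintegral_indicator measurableSet_Ioc]
    refine lintegral_congr fun s => ?_
    by_cases hs : 0 < s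
    · rw [indicator_of_mem (show s ∈ Ioi (0 : ℝ) from hs),
        Measure.restrict_apply (measurableSet_lt measurable_const hfm)]
      by_cases hsR : s ≤ R
      · rw [indicator_of_mem (show s ∈ Ioc 0 R from ⟨hs, hsR⟩), levels,
          ENNReal.ofReal_mul ENNReal.toReal_nonneg, ENNReal.ofReal_toReal
            (ne_top_of_le_ne_top (measure_Icc_lt_top (μ := volume)).ne (measure_mono inter_subset_right))]
      · rw [indicator_of_notMem (fun h : s ∈ Ioc 0 R => hsR h.2)]
        have : {t | s < f t} ∩ Icc a b = ∅ := eq_empty_iff_forall_notMem.2 fun t ⟨ht, ht'⟩ =>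
          hsR ((le_of_lt ht).trans (hR t ht'))
        simp [this]
    · rw [indicator_of_notMem (show s ∉ Ioi (0 : ℝ) from hs),
        indicator_of_notMem (fun h : s ∈ Ioc 0 R => hs h.1)]
  rw [h2] at h
  have hnn : ∀ᵐ t ∂volume.restrict (Icc a b), 0 ≤ f t ^ q :=
    (ae_restrict_iff' measurableSet_Icc).2 (Filter.Eventually.of_forall fun t ht => pow_nonneg (h0 t ht) _)
  rw [integral_eq_lintegral_of_nonneg_ae hnn (hfm.pow_const q).aestronglyMeasurable, h,
    ENNReal.toReal_mul, ENNReal.toReal_ofReal (by positivity)]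
  congr 1
  exact (integral_eq_lintegral_of_nonneg_ae (f := fun s => levels a b f s * s ^ (q - 1))
    ((ae_restrict_iff' measurableSet_Ioc).2 (Filter.Eventually.of_forall fun s hs =>
      mul_nonneg ENNReal.toReal_nonneg (pow_nonneg hs.1.le _))) hint.aestronglyMeasurable).symm

lemma levels_concave (hf : ConcaveOn ℝ (Icc a b) f) (hfm : Measurable f) {s t θ : ℝ}
    (hθ : 0 < θ) (hθ1 : θ < 1) (hs : ({x | s < f x} ∩ Icc a b).Nonempty)
    (ht : ({x | t < f x} ∩ Icc a b).Nonempty) :
    θ * levels a b f s + (1 - θ) * levels a b f t ≤ levels a b f (θ * s + (1 - θ) * t) := by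
  have hne : ∀ u, volume ({x | u < f x} ∩ Icc a b) ≠ ∞ := fun u =>
    ne_top_of_le_ne_top (measure_Icc_lt_top (μ := volume)).ne (measure_mono inter_subset_right)
  have hm : ∀ u, MeasurableSet ({x | u < f x} ∩ Icc a b) := fun u =>
    (measurableSet_lt measurable_const hfm).inter measurableSet_Icc
  have h := Vale.Agent.P262.volume_smul_add_ge (hm s) (hm t) hs ht hθ (sub_pos.2 hθ1)
    (C := {x | θ * s + (1 - θ) * t < f x} ∩ Icc a b) fun x hx y hy => by
      refine ⟨lt_of_lt_of_le ?_ (hf.2 hx.2 hy.2 hθ.le (sub_pos.2 hθ1).le (by ring)),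
        (convex_Icc a b) hx.2 hy.2 hθ.le (sub_pos.2 hθ1).le (by ring)⟩
      simp only [smul_eq_mul]
      exact add_lt_add (mul_lt_mul_of_pos_left hx.1 hθ)
        (mul_lt_mul_of_pos_left hy.1 (sub_pos.2 hθ1))
  have h' := ENNReal.toReal_mono (hne _) h
  rwa [ENNReal.toReal_add (ENNReal.mul_ne_top ENNReal.ofReal_ne_top (hne s))
    (ENNReal.mul_ne_top ENNReal.ofReal_ne_top (hne t)), ENNReal.toReal_mul, ENNReal.toReal_mul,
    ENNReal.toReal_ofReal hθ.le, ENNReal.toReal_ofReal (sub_pos.2 hθ1).le] at h'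

/-- Berwald's inequality between the `p`-th and the `(p+1)`-th moment. -/
theorem berwald (p : ℕ) (hab : a < b) (hf : ConcaveOn ℝ (Icc a b) f) (hfm : Measurable f)
    (h0 : ∀ t ∈ Icc a b, 0 ≤ f t) (hpos : ∀ t ∈ Ioo a b, 0 < f t)
    (hbdd : ∃ M, ∀ t ∈ Icc a b, f t ≤ M) :
    ((p : ℝ) + 2) ^ p / ((p : ℝ) + 1) ^ (p + 1) * (b - a) * (∫ t in Icc a b, f t ^ (p + 1)) ^ p
      ≤ (∫ t in Icc a b, f t ^ p) ^ (p + 1) := by
  rcases Nat.eq_zero_or_pos p with rfl | hp
  · simp [Real.volume_real_Icc, hab.le]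
  obtain ⟨M, hM⟩ := hbdd
  set w := b - a with hw
  have hw0 : 0 < w := by linarith
  set P := ∫ t in Icc a b, f t ^ p with hP
  have hP0 : 0 < P := by
    obtain ⟨c, hc⟩ : ∃ c, ∀ t ∈ Icc a b, ‖f t ^ p‖ ≤ c := ⟨M ^ p, fun t ht => by
      rw [Real.norm_of_nonneg (pow_nonneg (h0 t ht) _)]
      exact pow_le_pow_left₀ (h0 t ht) (hM t ht) _⟩
    have hi : IntegrableOn (fun t => f t ^ p) (Icc a b) :=
      Integrable.mono' (integrableOn_const (C := c) measure_Icc_lt_top.ne)
        (hfm.pow_const p).aestronglyMeasurable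
        ((ae_restrict_iff' measurableSet_Icc).2 (Filter.Eventually.of_forall hc))
    rw [hP, setIntegral_pos_iff_support_of_nonneg_ae
      ((ae_restrict_iff' measurableSet_Icc).2 (Filter.Eventually.of_forall fun t ht =>
        pow_nonneg (h0 t ht) _)) hi]
    refine lt_of_lt_of_le ?_ (measure_mono (show Ioo a b ⊆ _ from fun t ht =>
      ⟨(pow_pos (hpos t ht) p).ne', Ioo_subset_Icc_self ht⟩))
    simp [hab]
  set M' := (((p : ℝ) + 1) * P / w) ^ ((1 : ℝ) / p) with hM'
  have hM'0 : 0 < M' := Real.rpow_pos_of_pos (by positivity) _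
  have hM'p : M' ^ p = ((p : ℝ) + 1) * P / w := by
    rw [hM', ← Real.rpow_natCast, ← Real.rpow_mul (by positivity),
      one_div_mul_cancel (by exact_mod_cast hp.ne'), Real.rpow_one]
  set R := max M 0 + M' with hR
  have hRM : ∀ t ∈ Icc a b, f t ≤ R := fun t ht => by linarith [hM t ht, le_max_left M 0]
  have hR0 : M' ≤ R := by linarith [le_max_right M 0]
  obtain ⟨i1, e1⟩ := moment hfm h0 hRM hp
  obtain ⟨i2, e2⟩ := moment hfm h0 hRM (Nat.succ_pos p)
  rw [Nat.succ_sub_one] at i2 e2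
  set F := levels a b f with hF
  set G : ℝ → ℝ := fun s => max (w * (1 - s / M')) 0 with hG
  have hF0 : F 0 = w := by
    refine le_antisymm (levels_le hab.le 0) ?_
    have h1 : volume (Ioo a b) ≤ volume ({t | (0 : ℝ) < f t} ∩ Icc a b) :=
      measure_mono fun t ht => ⟨hpos t ht, Ioo_subset_Icc_self ht⟩
    have h2 := ENNReal.toReal_mono (ne_top_of_le_ne_top (measure_Icc_lt_top (μ := volume)).ne
      (measure_mono inter_subset_right)) h1
    rwa [Real.volume_Ioo, ENNReal.toReal_ofReal hw0.le] at h2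
  have hcross : ∀ s t, 0 ≤ s → s < t → F s < G s → F t ≤ G t := by
    intro s t hs hst hlt
    have hFs : 0 ≤ F s := ENNReal.toReal_nonneg
    have hsG : F s < w * (1 - s / M') := by
      rcases lt_max_iff.1 hlt with h | h
      · exact h
      · linarith
    rcases ({x | t < f x} ∩ Icc a b).eq_empty_or_nonempty with he | hne
    · have : F t = 0 := by simp [hF, levels, he]
      rw [this]; exact le_max_right _ _
    refine le_trans ?_ (le_max_left _ _)
    rcases hs.eq_or_lt with rfl | hs0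
    · rw [hF0] at hsG; simp at hsG
    have hne0 : ({x | (0 : ℝ) < f x} ∩ Icc a b).Nonempty := by
      obtain ⟨x, hx, hx'⟩ := hne
      exact ⟨x, lt_trans (hs0.trans hst) hx, hx'⟩
    have ht0 : 0 < t := hs0.trans hst
    have hlam : s / t < 1 := (div_lt_one ht0).2 hst
    have hc := levels_concave hf hfm (θ := s / t) (div_pos hs0 ht0) hlam hne hne0
    rw [mul_zero, add_zero, div_mul_cancel₀ _ ht0.ne', ← hF, hF0] at hc
    have h1 : s / t * F t < s / t * (w * (1 - t / M')) := by
      have e : s / t * (w * (1 - t / M')) = w * (1 - s / M') - (1 - s / t) * w := by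
        field_simp; ring
      linarith
    exact (lt_of_mul_lt_mul_left h1 (div_pos hs0 ht0).le).le
  -- the crossing point
  set N := {s ∈ Icc (0 : ℝ) R | F s < G s} ∪ {R} with hN
  set s₀ := sInf N
  have hNne : N.Nonempty := ⟨R, Or.inr rfl⟩
  have hNbd : BddBelow N := ⟨0, by
    rintro x (⟨hx, -⟩ | rfl)
    exacts [hx.1, by linarith]⟩
  have hsign : ∀ s ∈ Ioc 0 R, (s - s₀) * (F s - G s) ≤ 0 := by
    intro s hs
    rcases lt_trichotomy s s₀ with h | h | h
    · refine mul_nonpos_of_nonpos_of_nonneg (by linarith) (sub_nonneg.2 ?_)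
      by_contra hc
      exact absurd (csInf_le hNbd (Or.inl ⟨⟨hs.1.le, hs.2⟩, not_le.1 hc⟩)) (not_le.2 h)
    · simp [h]
    · obtain ⟨x, hx, hxs⟩ := exists_lt_of_csInf_lt hNne h
      rcases hx with ⟨hx1, hx2⟩ | rfl
      · exact mul_nonpos_of_nonneg_of_nonpos (by linarith)
          (sub_nonpos.2 (hcross x s hx1.1 hxs hx2))
      · linarith [hs.2]
  have hGint : ∀ j : ℕ, IntegrableOn (fun s => G s * s ^ j) (Ioc 0 R) ∧
      ∫ s in Ioc 0 R, G s * s ^ j = w * M' ^ (j + 1) / (((j : ℝ) + 1) * ((j : ℝ) + 2)) := by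
    intro j
    have hc : Continuous fun s => G s * s ^ j := by fun_prop
    refine ⟨hc.integrableOn_Ioc, ?_⟩
    rw [← Ioc_union_Ioc_eq_Ioc hM'0.le hR0, setIntegral_union (Ioc_disjoint_Ioc_of_le le_rfl)
      measurableSet_Ioc hc.integrableOn_Ioc hc.integrableOn_Ioc,
      setIntegral_congr_fun (measurableSet_Ioc (a := M') (b := R)) (g := fun _ => (0 : ℝ)) fun s hs => ?_,
      integral_zero, add_zero, setIntegral_congr_fun measurableSet_Ioc
        (g := fun s => w * s ^ j - w / M' * s ^ (j + 1)) fun s hs => ?_,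
      ← intervalIntegral.integral_of_le hM'0.le, intervalIntegral.integral_sub
        (Continuous.intervalIntegrable (by fun_prop) _ _) (Continuous.intervalIntegrable (by fun_prop) _ _),
      intervalIntegral.integral_const_mul, intervalIntegral.integral_const_mul, integral_pow,
      integral_pow]
    · simp only [zero_pow (Nat.succ_ne_zero _), sub_zero]
      push_cast
      field_simp
      ring
    · have : 0 ≤ w * (1 - s / M') := mul_nonneg hw0.le (sub_nonneg.2 ((div_le_one hM'0).2 hs.2))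
      simp only [hG, max_eq_left this, pow_succ]
      ring
    · have : w * (1 - s / M') ≤ 0 :=
        mul_nonpos_of_nonneg_of_nonpos hw0.le (sub_nonpos.2 ((one_le_div hM'0).2 hs.1.le))
      simp only [hG, max_eq_right this, zero_mul]
  obtain ⟨gp, vp⟩ := hGint (p - 1)
  obtain ⟨gq, vq⟩ := hGint p
  have hpc : ((p - 1 : ℕ) : ℝ) = (p : ℝ) - 1 := by rw [Nat.cast_sub hp]; simp
  rw [Nat.sub_add_cancel hp, hpc, show (p : ℝ) - 1 + 1 = p by ring,
    show (p : ℝ) - 1 + 2 = p + 1 by ring] at vp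
  have hIeq : ∫ s in Ioc 0 R, F s * s ^ (p - 1) = ∫ s in Ioc 0 R, G s * s ^ (p - 1) := by
    rw [vp, hM'p]
    have hp' : (p : ℝ) ≠ 0 := by exact_mod_cast hp.ne'
    rw [← hP] at e1
    field_simp
    linarith
  have hle : ∫ s in Ioc 0 R, F s * s ^ p ≤ ∫ s in Ioc 0 R, G s * s ^ p := by
    have h1 : ∫ s in Ioc 0 R, (F s * s ^ p - G s * s ^ p -
        s₀ * (F s * s ^ (p - 1) - G s * s ^ (p - 1))) ≤ 0 := by
      refine setIntegral_nonpos measurableSet_Ioc fun s hs => ?_
      have e : s ^ p = s * s ^ (p - 1) := by rw [← pow_succ', Nat.sub_add_cancel hp]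
      rw [e]
      have := mul_le_mul_of_nonneg_left (hsign s hs) (pow_nonneg hs.1.le (p - 1))
      linarith
    rw [integral_sub (i2.fun_sub gq) ((i1.fun_sub gp).const_mul _), integral_const_mul,
      integral_sub i2 gq, integral_sub i1 gp, hIeq, sub_self, mul_zero, sub_zero] at h1
    linarith
  rw [vq] at hle
  rw [e2]
  push_cast
  have hI0 : 0 ≤ ∫ s in Ioc 0 R, F s * s ^ p := setIntegral_nonneg measurableSet_Ioc fun s hs =>
    mul_nonneg ENNReal.toReal_nonneg (pow_nonneg hs.1.le _)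
  have hQ : ((p : ℝ) + 1) * (∫ s in Ioc 0 R, F s * s ^ p) ≤ w * M' ^ (p + 1) / ((p : ℝ) + 2) := by
    refine (mul_le_mul_of_nonneg_left hle (by positivity)).trans (le_of_eq ?_)
    field_simp
  have hPw : P = w * M' ^ p / ((p : ℝ) + 1) := by rw [hM'p]; field_simp
  calc ((p : ℝ) + 2) ^ p / ((p : ℝ) + 1) ^ (p + 1) * w *
        (((p : ℝ) + 1) * ∫ s in Ioc 0 R, F s * s ^ p) ^ p
      ≤ ((p : ℝ) + 2) ^ p / ((p : ℝ) + 1) ^ (p + 1) * w * (w * M' ^ (p + 1) / ((p : ℝ) + 2)) ^ p := by
        gcongr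
    _ = P ^ (p + 1) := by
        rw [hPw, div_pow, div_pow, mul_pow, mul_pow, ← pow_mul, ← pow_mul, pow_succ w]
        field_simp
        ring

end Vale.Agent.P237
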