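import Vale.Agent.P237.Approx
import Vale.Agent.P237.Profile

/-!
The induction on the dimension: `|Π K| ≥ 2^N N^N / (N!)^2 |K|^(N-1)`.
-/

open MeasureTheory Set Filter Topology Real
open scoped RealInnerProductSpace Pointwise ENNReal NNReal

namespace Vale.Agent.P237

variable {m N : ℕ}

/-- The constant. -/
noncomputable def cst (N : ℕ) : ℝ := 2 ^ N * (N : ℝ) ^ N / (N.factorial : ℝ) ^ 2

lemma cst_succ (m : ℕ) :
    cst (m + 2) = 2 * (cst (m + 1) * (((m : ℝ) + 2) ^ m / ((m : ℝ) + 1) ^ (m + 1))) := by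
  simp only [cst, Nat.factorial_succ]
  push_cast
  rw [show ((m : ℝ) + 1 + 1) = m + 2 by ring, pow_succ 2 (m + 1), pow_succ ((m : ℝ) + 2) (m + 1),
    pow_succ ((m : ℝ) + 2) m]
  have : (m.factorial : ℝ) ≠ 0 := by positivity
  field_simp

lemma cst_nonneg (N : ℕ) : 0 ≤ cst N := by unfold cst; positivity

/-- The bound in dimension `m + 1`. -/
def Good (m : ℕ) : Prop :=
  ∀ K : Set (E (m + 1)), Body K → (interior K).Nonempty →
    cst (m + 1) * (volume K).toReal ^ m ≤ (volume (projBody K)).toReal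

lemma good_zero : Good 0 := by
  intro K hK hi
  have hne : K.Nonempty := hi.mono interior_subset
  have hp : ∀ u, projVol K u = ‖u‖ := by
    intro u
    rcases eq_or_ne u 0 with rfl | hu
    · simp [projVol_zero]
    obtain ⟨F⟩ := exists_frame (ν := ‖u‖⁻¹ • u) (norm_smul_inv_norm hu)
    have hu' : u = ‖u‖ • (‖u‖⁻¹ • u) := by
      rw [smul_smul, mul_inv_cancel₀ (norm_ne_zero_iff.2 hu), one_smul]
    have h1 : F.proj '' K = univ := eq_univ_of_forall fun y => by
      obtain ⟨k, hk⟩ := hne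
      exact ⟨k, hk, Subsingleton.elim _ _⟩
    have h2 : volume (univ : Set (E 0)) = 1 := by
      rw [← (PiLp.volume_preserving_toLp (Fin 0)).measure_preimage MeasurableSet.univ.nullMeasurableSet,
        preimage_univ, volume_pi, Measure.pi_of_empty]
      simp
    conv_lhs => rw [hu', F.projVol_eq, h1, h2]
    simp
  have hball : projBody K = Metric.closedBall (0 : E 1) 1 := by
    ext y
    simp only [projBody, hp, mem_ofPred_eq, mem_closedBall_zero_iff]
    constructor
    · intro h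
      have := h y
      rw [real_inner_self_eq_norm_sq] at this
      nlinarith [norm_nonneg y]
    · intro h u
      exact (real_inner_le_norm y u).trans (mul_le_of_le_one_left (norm_nonneg _) h)
  rw [hball, EuclideanSpace.volume_closedBall, cst]
  · have hG : Real.Gamma ((1 : ℕ) / 2 + 1) = √π / 2 := by
      rw [Real.Gamma_add_one (by norm_num)]
      norm_num [Real.Gamma_one_half_eq]
      ring
    have hπ : √π ≠ 0 := (Real.sqrt_pos.2 Real.pi_pos).ne'
    simp only [zero_add, Fintype.card_fin, hG, ENNReal.ofReal_one, one_pow, one_mul]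
    rw [ENNReal.toReal_ofReal (by positivity)]
    field_simp
    norm_num

/-- The width function. -/
noncomputable def supp (K : Set (E N)) (v : E N) : ℝ := sSup ((fun k => ⟪v, k⟫) '' K)

lemma supp_spec {K : Set (E N)} (hK : IsCompact K) (hne : K.Nonempty) (v : E N) :
    (∃ k ∈ K, supp K v = ⟪v, k⟫) ∧ ∀ k ∈ K, ⟪v, k⟫ ≤ supp K v := by
  obtain ⟨k, hk, e, h⟩ := hK.exists_sSup_image_eq_and_ge hne
    (f := fun k => ⟪v, k⟫) (by fun_prop : Continuous _).continuousOn
  exact ⟨⟨k, hk, e⟩, fun k' hk' => (h k' hk').trans e.ge⟩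

lemma supp_smul {K : Set (E N)} (hK : IsCompact K) (hne : K.Nonempty) {c : ℝ} (hc : 0 ≤ c)
    (v : E N) : supp K (c • v) = c * supp K v := by
  obtain ⟨⟨k, hk, e⟩, h⟩ := supp_spec hK hne v
  obtain ⟨⟨k', hk', e'⟩, h'⟩ := supp_spec hK hne (c • v)
  apply le_antisymm
  · rw [e', real_inner_smul_left]; exact mul_le_mul_of_nonneg_left (h _ hk') hc
  · rw [e, ← real_inner_smul_left]; exact h' _ hk

lemma exists_lip_supp {K : Set (E N)} (hK : IsCompact K) (hne : K.Nonempty) :
    ∃ L : ℝ≥0, LipschitzWith L (supp K) := by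
  obtain ⟨r, hr⟩ := hK.isBounded.subset_closedBall (0 : E N)
  refine ⟨r.toNNReal, LipschitzWith.of_le_add_mul _ fun u v => ?_⟩
  obtain ⟨⟨k, hk, e⟩, -⟩ := supp_spec hK hne u
  have h1 := (supp_spec hK hne v).2 k hk
  have h2 := abs_real_inner_le_norm (u - v) k
  have h3 : ‖k‖ ≤ r := mem_closedBall_zero_iff.1 (hr hk)
  rw [inner_sub_left] at h2
  rw [Real.coe_toNNReal _ ((norm_nonneg k).trans h3), dist_eq_norm, e, mul_comm]
  have h4 := mul_le_mul_of_nonneg_left h3 (norm_nonneg (u - v))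
  linarith [le_abs_self (⟪u, k⟫ - ⟪v, k⟫)]

lemma exists_root {n : ℕ} (hn : n ≠ 0) {V : ℝ} (hV : 0 ≤ V) : ∃ a, 0 ≤ a ∧ a ^ n = V :=
  ⟨V ^ ((1 : ℝ) / n), Real.rpow_nonneg hV _, by
    rw [← Real.rpow_natCast, ← Real.rpow_mul hV, one_div_mul_cancel (by exact_mod_cast hn),
      Real.rpow_one]⟩

/-- The shadow of a frame is large. -/
lemma shadow (ih : Good m) {K : Set (E (m + 2))} (hK : Cen K) {ν : E (m + 2)} (F : Frame ν) :
    cst (m + 1) * (((m : ℝ) + 2) ^ m / ((m : ℝ) + 1) ^ (m + 1)) * (volume K).toReal ^ m *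
      (supp K ν + supp K (-ν)) ≤
      (volume (wulff fun y : E (m + 1) => projVol K (F.S (0, y)))).toReal := by
  have hi : (interior K).Nonempty := ⟨0, hK.int⟩
  have hne : K.Nonempty := hi.mono interior_subset
  set V := (volume K).toReal with hV
  have hV0 : 0 < V := ENNReal.toReal_pos
    (Measure.measure_pos_of_mem_nhds volume hK.nhds_zero).ne' hK.cpt.measure_lt_top.ne
  set a := -supp K (-ν) with ha
  set b := supp K ν with hb
  have hcoord : ∀ t y, ⟪ν, F.S (t, y)⟫ = t := by
    intro t y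
    have h := F.inn 1 0 t y
    rw [F.one] at h
    simpa using h
  have hint : ∀ t y, F.S (t, y) ∈ K → t ∈ Icc a b := by
    intro t y h
    have h1 := (supp_spec hK.cpt hne ν).2 _ h
    have h2 := (supp_spec hK.cpt hne (-ν)).2 _ h
    rw [inner_neg_left, hcoord] at h2
    rw [hcoord] at h1
    exact ⟨by linarith, h1⟩
  set vt : ℝ → ℝ := fun t => (volume (F.slice K t)).toReal with hvt
  obtain ⟨hvti, hvte⟩ := F.volume_slices K hK.cpt
  set f : ℝ → ℝ := fun t => vt t ^ ((1 : ℝ) / (m + 1)) with hf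
  have hvt0 : ∀ t, 0 ≤ vt t := fun t => ENNReal.toReal_nonneg
  have hfpow : ∀ t, f t ^ (m + 1) = vt t := fun t => by
    rw [hf, ← Real.rpow_natCast, ← Real.rpow_mul (hvt0 t)]
    push_cast
    rw [one_div_mul_cancel (by positivity), Real.rpow_one]
  have hf0 : ∀ t, 0 ≤ f t := fun t => Real.rpow_nonneg (hvt0 t) _
  have hfm : Measurable f := by
    have : Measurable vt :=
      (measurable_measure_prodMk_left (hK.cpt.measurableSet.preimage F.S.continuous.measurable)).ennreal_toReal
    exact this.pow_const _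
  have hzero : ∀ t, t ∉ Icc a b → vt t = 0 := fun t ht => by
    have : F.slice K t = ∅ := eq_empty_iff_forall_notMem.2 fun y hy => ht (hint t y hy)
    simp [hvt, this]
  have hsne : ∀ t ∈ Icc a b, (F.slice K t).Nonempty := by
    intro t ht
    obtain ⟨⟨k, hk, ek⟩, -⟩ := supp_spec hK.cpt hne ν
    obtain ⟨⟨l, hl, el⟩, -⟩ := supp_spec hK.cpt hne (-ν)
    rw [← hb] at ek
    rw [inner_neg_left] at el
    have hla : ⟪ν, l⟫ = a := by rw [ha]; linarith
    have hconn := hK.conv.isPreconnected.image (fun x => ⟪ν, x⟫) (by fun_prop : Continuous _).continuousOn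
    obtain ⟨x, hx, hxt⟩ := hconn.ordConnected.out ⟨l, hl, hla⟩ ⟨k, hk, ek.symm⟩ ht
    refine ⟨F.proj x, ?_⟩
    have hx1 : (F.S.symm x).1 = t := by
      rw [← hxt, ← hcoord (F.S.symm x).1 (F.S.symm x).2, Prod.mk.eta, F.S.apply_symm_apply]
    show F.S (t, F.proj x) ∈ K
    rw [← hx1, Frame.proj, Prod.mk.eta, F.S.apply_symm_apply]
    exact hx
  have hconc : ConcaveOn ℝ (Icc a b) f := by
    refine ⟨convex_Icc _ _, fun s hs t ht p q hp hq hpq => ?_⟩
    simp only [smul_eq_mul]
    have hsub : p • F.slice K s + q • F.slice K t ⊆ F.slice K (p * s + q * t) := by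
      rintro _ ⟨_, ⟨y, hy, rfl⟩, _, ⟨z, hz, rfl⟩, rfl⟩
      have h := hK.conv hy hz hp hq hpq
      rw [← map_smul, ← map_smul, ← map_add] at h
      exact h
    have h := bm ((F.slice_body hK.toBody s).cpt.smul p) ((F.slice_body hK.toBody t).cpt.smul q)
      (hsne s hs).smul_set (hsne t ht).smul_set (mul_nonneg hp (hf0 s)) (mul_nonneg hq (hf0 t))
      (by rw [volume_smul hp, mul_pow, hfpow]) (by rw [volume_smul hq, mul_pow, hfpow])
    refine (pow_le_pow_iff_left₀ (add_nonneg (mul_nonneg hp (hf0 s)) (mul_nonneg hq (hf0 t)))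
      (hf0 _) (Nat.succ_ne_zero m)).1 (h.trans ?_)
    rw [hfpow]
    exact ENNReal.toReal_mono (F.slice_body hK.toBody _).cpt.measure_lt_top.ne (measure_mono hsub)
  have hI : ∫ t in Icc a b, f t ^ (m + 1) = V := by
    simp only [hfpow]
    rw [setIntegral_eq_integral_of_forall_compl_eq_zero hzero]
    exact hvte
  have hab : a < b := by
    by_contra hc
    have : volume (Icc a b) = 0 := by
      rw [Real.volume_Icc, ENNReal.ofReal_eq_zero]; linarith [not_lt.1 hc]
    rw [setIntegral_measure_zero _ this] at hI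
    linarith
  have hbdd : ∃ M, ∀ t ∈ Icc a b, f t ≤ M := by
    refine ⟨((volume (F.proj '' K)).toReal) ^ ((1 : ℝ) / (m + 1)), fun t _ =>
      Real.rpow_le_rpow (hvt0 t) ?_ (by positivity)⟩
    exact ENNReal.toReal_mono (hK.cpt.image F.continuous_proj).measure_lt_top.ne
      (measure_mono fun y hy => ⟨_, hy, F.proj_S t y⟩)
  have hpos : ∀ t ∈ Ioo a b, 0 < f t := by
    obtain ⟨t₀, ht₀, hft₀⟩ : ∃ t₀ ∈ Icc a b, 0 < f t₀ := by
      by_contra hc
      push Not at hc
      have : ∫ t in Icc a b, f t ^ (m + 1) = 0 :=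
        setIntegral_eq_zero_of_forall_eq_zero fun t ht => by
          rw [le_antisymm (hc t ht) (hf0 t), zero_pow (Nat.succ_ne_zero m)]
      rw [hI] at this
      linarith
    intro t ht
    obtain ⟨e, he, p, hp0, hp1, hpe⟩ : ∃ e ∈ Icc a b, ∃ p, 0 < p ∧ p ≤ (1 : ℝ) ∧
        p * t₀ + (1 - p) * e = t := by
      rcases lt_trichotomy t t₀ with h | h | h
      · refine ⟨a, left_mem_Icc.2 hab.le, (t - a) / (t₀ - a), div_pos (by linarith [ht.1])
          (by linarith [ht.1]), (div_le_one (by linarith [ht.1])).2 (by linarith), ?_⟩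
        have : t₀ - a ≠ 0 := by linarith [ht.1]
        field_simp; ring
      · exact ⟨a, left_mem_Icc.2 hab.le, 1, one_pos, le_rfl, by linarith⟩
      · refine ⟨b, right_mem_Icc.2 hab.le, (b - t) / (b - t₀), div_pos (by linarith [ht.2])
          (by linarith [ht.2]), (div_le_one (by linarith [ht.2])).2 (by linarith), ?_⟩
        have : b - t₀ ≠ 0 := by linarith [ht.2]
        field_simp; ring
    have h := hconc.2 ht₀ he hp0.le (sub_nonneg.2 hp1) (by ring)
    simp only [smul_eq_mul, hpe] at h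
    exact lt_of_lt_of_le (add_pos_of_pos_of_nonneg (mul_pos hp0 hft₀)
      (mul_nonneg (sub_nonneg.2 hp1) (hf0 e))) h
  have hber := berwald m hab hconc hfm (fun t _ => hf0 t) hpos hbdd
  rw [hI] at hber
  obtain ⟨c', hc'0, hc'⟩ := exists_root (Nat.succ_ne_zero m) (cst_nonneg (m + 1))
  set bt : ℝ → ℝ := (Ioo a b).indicator fun t => c' * f t ^ m with hbt
  obtain ⟨M, hM⟩ := hbdd
  have hfi : IntegrableOn (fun t => c' * f t ^ m) (Ioo a b) := by
    refine Integrable.mono' (integrableOn_const (C := c' * M ^ m) measure_Ioo_lt_top.ne)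
      ((hfm.pow_const m).const_mul c').aestronglyMeasurable
      ((ae_restrict_iff' measurableSet_Ioo).2 (Eventually.of_forall fun t ht => ?_))
    rw [Real.norm_of_nonneg (mul_nonneg hc'0 (pow_nonneg (hf0 t) _))]
    exact mul_le_mul_of_nonneg_left (pow_le_pow_left₀ (hf0 t) (hM t (Ioo_subset_Icc_self ht)) _) hc'0
  have hbti : Integrable bt := by rwa [hbt, integrable_indicator_iff measurableSet_Ioo]
  have hbt0 : ∀ t, 0 ≤ bt t := fun t =>
    indicator_nonneg (fun s _ => mul_nonneg hc'0 (pow_nonneg (hf0 s) _)) t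
  have hW := volume_wulff (sublin_hyper hK.toBody hi F)
    (measurable_slice_projVol F hK.toBody) (fun t v => projVol_nonneg _ v)
    (fun v => (projVol_slices F hK.toBody v).1) (fun v => (projVol_slices F hK.toBody v).2.le)
    hbti hbt0 ?_
  · refine le_trans ?_ hW
    have hint' : ∫ t, bt t = c' * ∫ t in Icc a b, f t ^ m := by
      rw [hbt, integral_indicator measurableSet_Ioo, integral_const_mul, ← integral_Icc_eq_integral_Ioo]
    rw [hint', mul_pow, hc']
    refine le_trans (le_of_eq ?_) (mul_le_mul_of_nonneg_left hber (cst_nonneg _))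
    rw [ha]; ring
  intro t ht
  have htI : t ∈ Ioo a b := by
    by_contra hc
    rw [hbt, indicator_of_notMem hc] at ht
    linarith
  have hbody := F.slice_body hK.toBody t
  have hvpos : 0 < vt t := by
    rw [← hfpow]; exact pow_pos (hpos t htI) _
  have hint2 := hbody.interior_of_pos (fun h => by simp [hvt, h] at hvpos)
  have hs := sublin_projVol hbody hint2
  refine ⟨hs.continuous, hs.cen.cpt, le_trans (le_of_eq ?_) (ih _ hbody hint2)⟩
  rw [hbt, indicator_of_mem htI, mul_pow, hc', ← pow_mul, mul_comm m, pow_mul, hfpow]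

lemma good_succ (ih : Good m) : Good (m + 1) := by
  intro K₀ hK₀ hi₀
  obtain ⟨z, hK⟩ := exists_cen hK₀ hi₀
  rw [← projBody_vadd hK₀ z, ← measure_vadd (μ := (volume : Measure (E (m + 2)))) z K₀]
  set K := z +ᵥ K₀
  have hne : K.Nonempty := ⟨0, interior_subset hK.int⟩
  set V := (volume K).toReal with hV
  obtain ⟨a, ha0, haV⟩ := exists_root (n := m + 1 + 1) (by omega) (V := V) ENNReal.toReal_nonneg
  set A := cst (m + 1) * (((m : ℝ) + 2) ^ m / ((m : ℝ) + 1) ^ (m + 1)) * V ^ m with hA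
  have hA0 : 0 ≤ A := by
    have := cst_nonneg (m + 1)
    have : 0 ≤ V := ENNReal.toReal_nonneg
    positivity
  set w : E (m + 2) → ℝ := fun v => supp K v + supp K (-v) with hw
  obtain ⟨L, hL⟩ := exists_lip_supp hK.cpt hne
  have hwL : LipschitzWith (L + L) w := by
    refine LipschitzWith.add hL ?_
    simpa [Function.comp_def] using hL.comp LipschitzWith.id.neg
  have hAw : LipschitzWith (A.toNNReal * (L + L)) fun v => A * w v := by
    refine LipschitzWith.of_le_add_mul _ fun x y => ?_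
    have h1 := hwL.le_add_mul x y
    calc A * w x ≤ A * (w y + ↑(L + L) * dist x y) := mul_le_mul_of_nonneg_left h1 hA0
      _ = _ := by rw [NNReal.coe_mul, Real.coe_toNNReal _ hA0]; ring
  have hws : ∀ c : ℝ, 0 ≤ c → ∀ x, w (c • x) = c * w x := by
    intro c hc x
    simp only [hw, ← smul_neg, supp_smul hK.cpt hne hc]
    ring
  have hstep := step hK hAw (fun c hc x => by rw [hws c hc]; ring) fun v hv F => by
    have h := shadow ih hK F
    rw [← hA] at h
    have hv' : v = ‖v‖ • (‖v‖⁻¹ • v) := by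
      rw [smul_smul, mul_inv_cancel₀ (norm_ne_zero_iff.2 hv), one_smul]
    conv_lhs => rw [hv', hws _ (norm_nonneg v)]
    rw [mul_left_comm]
    exact mul_le_mul_of_nonneg_left h (norm_nonneg v)
  have hJ : J K (fun v => A * w v) = A * J K w := by
    simp only [J, mul_left_comm _ A, integral_const_mul]
    ring
  set D := K + (-1 : ℝ) • K with hD
  have hb : (2 * a) ^ (m + 1 + 1) ≤ (volume D).toReal := by
    rw [two_mul]
    refine bm hK.cpt (hK.cpt.smul _) hne hne.smul_set ha0 ha0 haV.le (le_of_eq ?_)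
    rw [haV, Measure.addHaar_smul, finrank_euclideanSpace_fin]
    simp [hV]
  have hmink := mink hK (hK.cpt.add (hK.cpt.smul (-1 : ℝ))) (hne.add hne.smul_set) hwL.continuous
    (fun l hl v => ?_) ha0 (by positivity : 0 ≤ 2 * a) haV hb
  · rw [hJ] at hstep
    have h1 := (mul_le_mul_of_nonneg_left hmink hA0).trans hstep
    refine le_of_mul_le_mul_left (le_trans (le_of_eq ?_) h1) (by positivity : (0 : ℝ) < (m : ℝ) + 2)
    rw [cst_succ, hA, pow_succ V m, ← haV]
    push_cast
    ring
  obtain ⟨k, hk, _, ⟨k', hk', rfl⟩, rfl⟩ := hl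
  have h1 := (supp_spec hK.cpt hne v).2 k hk
  have h2 := (supp_spec hK.cpt hne (-v)).2 k' hk'
  rw [inner_neg_left] at h2
  rw [inner_add_right, inner_smul_right]
  simp only [hw]
  linarith

theorem good : ∀ m, Good m
  | 0 => good_zero
  | m + 1 => good_succ (good m)

/-- `|Π K| ≥ 2^n n^n / (n!)^2 |K|^(n-1)`. -/
theorem projBody_volume_lower {n : ℕ} (hn : 1 ≤ n) {K : Set (E n)} (hc : Convex ℝ K)
    (hk : IsCompact K) (hi : (interior K).Nonempty) :
    2 ^ n * (n : ℝ) ^ n / (n.factorial : ℝ) ^ 2 * (volume K).toReal ^ (n - 1) ≤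
      (volume (projBody K)).toReal := by
  obtain ⟨m, rfl⟩ := Nat.exists_eq_add_of_le' hn
  exact good m K ⟨hc, hk⟩ hi

end Vale.Agent.P237
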