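import Vale.Agent.P237.Bridge
import Vale.Agent.P237.ProdStatement

/-!
Multiplicativity of the normalised projection volume on orthogonal products.
-/

open MeasureTheory Set Real
open scoped RealInnerProductSpace Pointwise ENNReal

namespace Vale.Agent.P237

open Statement

variable {a b : ℕ}

/-- Concatenation of coordinates. -/
noncomputable def appendEquiv (a b : ℕ) : (E a × E b) ≃ₗ[ℝ] E (a + b) where
  toFun p := WithLp.toLp 2 (Fin.append p.1.ofLp p.2.ofLp)
  map_add' p q := by
    ext i
    refine Fin.addCases (fun j => ?_) (fun j => ?_) i <;> simp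
  map_smul' r p := by
    ext i
    refine Fin.addCases (fun j => ?_) (fun j => ?_) i <;> simp
  invFun z := (WithLp.toLp 2 fun i => z (Fin.castAdd b i), WithLp.toLp 2 fun j => z (Fin.natAdd a j))
  left_inv p := by simp
  right_inv z := by
    ext i
    refine Fin.addCases (fun j => ?_) (fun j => ?_) i <;> simp

lemma appendEquiv_mp (a b : ℕ) : MeasurePreserving (appendEquiv a b) volume volume := by
  have h1 : MeasurePreserving (fun p : E a × E b => (p.1.ofLp, p.2.ofLp)) volume volume := by
    rw [Measure.volume_eq_prod, Measure.volume_eq_prod]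
    exact (PiLp.volume_preserving_ofLp _).prod (PiLp.volume_preserving_ofLp _)
  have h2 := volume_measurePreserving_sumPiEquivProdPi_symm (fun _ : Fin a ⊕ Fin b => ℝ)
  have h3 := volume_measurePreserving_piCongrLeft (fun _ : Fin (a + b) => ℝ) finSumFinEquiv
  have h4 : MeasurePreserving (fun p : (Fin a → ℝ) × (Fin b → ℝ) => Fin.append p.1 p.2)
      volume volume := by
    have e : (fun p : (Fin a → ℝ) × (Fin b → ℝ) => Fin.append p.1 p.2) =
        ⇑(MeasurableEquiv.piCongrLeft (fun _ : Fin (a + b) => ℝ) finSumFinEquiv) ∘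
          ⇑(MeasurableEquiv.sumPiEquivProdPi (fun _ : Fin a ⊕ Fin b => ℝ)).symm := by
      funext p i
      refine Fin.addCases (fun j => ?_) (fun j => ?_) i
      · rw [Fin.append_left, Function.comp_apply, ← finSumFinEquiv_apply_left]
        simp [MeasurableEquiv.coe_piCongrLeft, Equiv.piCongrLeft_apply, MeasurableEquiv.sumPiEquivProdPi]
      · rw [Fin.append_right, Function.comp_apply, ← finSumFinEquiv_apply_right]
        simp [MeasurableEquiv.coe_piCongrLeft, Equiv.piCongrLeft_apply, MeasurableEquiv.sumPiEquivProdPi]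
    rw [e]
    exact h3.comp h2
  exact (PiLp.volume_preserving_toLp _).comp (h4.comp h1)

/-- Concatenation as a continuous linear equivalence. -/
noncomputable def appendL (a b : ℕ) : (E a × E b) ≃L[ℝ] E (a + b) :=
  (appendEquiv a b).toContinuousLinearEquiv

lemma inner_appendL (x x' : E a) (y y' : E b) :
    ⟪appendL a b (x, y), appendL a b (x', y')⟫ = ⟪x, x'⟫ + ⟪y, y'⟫ := by
  simp [appendL, appendEquiv, PiLp.inner_apply, Fin.sum_univ_add]

lemma prodSet_eq (K : Set (E a)) (L : Set (E b)) :
    prodSet K L = (appendL a b).symm ⁻¹' (K ×ˢ L) := rfl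

lemma prodSet_isConvexBody {K : Set (E a)} {L : Set (E b)} (hK : IsConvexBody K)
    (hL : IsConvexBody L) : IsConvexBody (prodSet K L) := by
  rw [prodSet_eq]
  refine ⟨(hK.1.prod hL.1).linear_preimage (appendL a b).symm.toLinearEquiv.toLinearMap,
    (appendL a b).symm.toHomeomorph.isCompact_preimage.2 (hK.2.1.prod hL.2.1), ?_⟩
  obtain ⟨x, hx⟩ := hK.2.2
  obtain ⟨y, hy⟩ := hL.2.2
  refine ⟨appendL a b (x, y), preimage_interior_subset_interior_preimage
    (appendL a b).symm.continuous ?_⟩
  rw [mem_preimage, ContinuousLinearEquiv.symm_apply_apply, interior_prod_eq]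
  exact ⟨hx, hy⟩

lemma volume_preimage_symm {A : Set (E a × E b)} (hA : IsCompact A) :
    volume ((appendL a b).symm ⁻¹' A) = volume A := by
  have hm : MeasurableSet ((appendL a b).symm ⁻¹' A) :=
    hA.measurableSet.preimage (appendL a b).symm.continuous.measurable
  rw [← (appendEquiv_mp a b).measure_preimage hm.nullMeasurableSet]
  congr 1
  ext p
  show (appendL a b).symm (appendL a b p) ∈ A ↔ _
  rw [ContinuousLinearEquiv.symm_apply_apply]

lemma vol_prodSet {K : Set (E a)} {L : Set (E b)} (hK : IsCompact K) (hL : IsCompact L) :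
    vol (prodSet K L) = vol K * vol L := by
  rw [vol, prodSet_eq, volume_preimage_symm (hK.prod hL), Measure.volume_eq_prod, Measure.prod_prod,
    ENNReal.toReal_mul]
  rfl

lemma volume_addSeg' {N : ℕ} (hN : 1 ≤ N) {K : Set (E N)} (hK : Body K) (u : E N) :
    (volume (addSeg K u)).toReal = (volume K).toReal + projVol K u := by
  obtain ⟨m, rfl⟩ := Nat.exists_eq_add_of_le' hN
  exact volume_addSeg hK u

/-- The projection function of a product is a weighted sum. -/
theorem projVol_prodSet (ha : 1 ≤ a) (hb : 1 ≤ b) {K : Set (E a)} {L : Set (E b)}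
    (hK : IsConvexBody K) (hL : IsConvexBody L) (u₁ : E a) (u₂ : E b) :
    projVol (prodSet K L) (appendL a b (u₁, u₂)) = vol L * projVol K u₁ + vol K * projVol L u₂ := by
  have bK : Body K := ⟨hK.1, hK.2.1⟩
  have bL : Body L := ⟨hL.1, hL.2.1⟩
  obtain ⟨hc, hk, -⟩ := prodSet_isConvexBody hK hL
  have hA := isCompact_addSeg (hK.2.1.prod hL.2.1) (u₁, u₂)
  have hpre : addSeg (prodSet K L) (appendL a b (u₁, u₂)) =
      (appendL a b).symm ⁻¹' addSeg (K ×ˢ L) (u₁, u₂) := by
    ext z
    simp only [prodSet_eq, mem_preimage, mem_addSeg]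
    constructor
    · rintro ⟨k, hk, s, hs, rfl⟩
      exact ⟨_, hk, s, hs, by rw [map_add, map_smul, ContinuousLinearEquiv.symm_apply_apply]⟩
    · rintro ⟨k, hk, s, hs, e⟩
      refine ⟨appendL a b k, by rwa [ContinuousLinearEquiv.symm_apply_apply], s, hs, ?_⟩
      rw [← map_smul, ← map_add, e, ContinuousLinearEquiv.apply_symm_apply]
  have h1 := volume_addSeg' (Nat.le_add_right_of_le ha) ⟨hc, hk⟩ (appendL a b (u₁, u₂))
  rw [hpre, volume_preimage_symm hA] at h1
  -- the parameter set over a point of the first factor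
  set Tset : Set (E a × ℝ) := {q | q.2 ∈ Icc (0 : ℝ) 1 ∧ q.1 - q.2 • u₁ ∈ K} with hTset
  have hTm : MeasurableSet Tset :=
    ((isClosed_Icc.preimage continuous_snd).inter (hK.2.1.isClosed.preimage
      (continuous_fst.sub (continuous_snd.smul continuous_const)))).measurableSet
  have hTint : ∫⁻ x, volume (Prod.mk x ⁻¹' Tset) = volume K := by
    rw [← Measure.prod_apply (ν := (volume : Measure ℝ)) hTm, Measure.prod_apply_symm hTm]
    have e : ∀ s : ℝ, volume ((fun x : E a => (x, s)) ⁻¹' Tset) =
        (Icc (0 : ℝ) 1).indicator (fun _ => volume K) s := by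
      intro s
      by_cases hs : s ∈ Icc (0 : ℝ) 1
      · rw [indicator_of_mem hs]
        have : (fun x : E a => (x, s)) ⁻¹' Tset = (fun x => x + -(s • u₁)) ⁻¹' K := by
          ext x
          simp only [hTset, mem_preimage, mem_ofPred_eq, sub_eq_add_neg, and_iff_right hs]
        rw [this, measure_preimage_add_right]
      · rw [indicator_of_notMem hs]
        refine measure_mono_null (t := ∅) ?_ measure_empty
        intro x hx
        exact absurd hx.1 hs
    simp only [e]
    rw [lintegral_indicator_const measurableSet_Icc]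
    simp
  have hslice : ∀ x, volume (Prod.mk x ⁻¹' addSeg (K ×ˢ L) (u₁, u₂)) =
      (addSeg K u₁).indicator (fun _ => volume L) x +
        ENNReal.ofReal (projVol L u₂) * volume (Prod.mk x ⁻¹' Tset) := by
    intro x
    set T := Prod.mk x ⁻¹' Tset with hT
    have hmem : ∀ s, s ∈ T ↔ s ∈ Icc (0 : ℝ) 1 ∧ x - s • u₁ ∈ K := fun s => Iff.rfl
    have hsl : Prod.mk x ⁻¹' addSeg (K ×ˢ L) (u₁, u₂) = {y | ∃ s ∈ T, y - s • u₂ ∈ L} := by
      ext y
      simp only [mem_preimage, mem_addSeg, mem_prod, mem_ofPred_eq]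
      constructor
      · rintro ⟨k, ⟨hk1, hk2⟩, s, hs, e⟩
        obtain ⟨rfl, rfl⟩ := Prod.ext_iff.1 e
        exact ⟨s, (hmem s).2 ⟨hs, by simpa using hk1⟩, by simpa using hk2⟩
      · rintro ⟨s, hs, hy⟩
        exact ⟨(x - s • u₁, y - s • u₂), ⟨((hmem s).1 hs).2, hy⟩, s, ((hmem s).1 hs).1, by simp⟩
    by_cases hx : x ∈ addSeg K u₁
    swap
    · have hTe : T = ∅ := eq_empty_iff_forall_notMem.2 fun s hs =>
        hx (mem_addSeg.2 ⟨_, ((hmem s).1 hs).2, s, ((hmem s).1 hs).1, sub_add_cancel _ _⟩)
      rw [hsl, hTe, indicator_of_notMem hx]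
      simp
    have hTn : T.Nonempty := by
      obtain ⟨k, hk, s, hs, rfl⟩ := mem_addSeg.1 hx
      exact ⟨s, (hmem s).2 ⟨hs, by simpa using hk⟩⟩
    have hTc : IsCompact T := isCompact_Icc.of_isClosed_subset
      ((isClosed_Icc.inter (hK.2.1.isClosed.preimage
        (continuous_const.sub (continuous_id.smul continuous_const))))) fun s hs => hs.1
    have hTconv : Convex ℝ T := fun s hs t ht p q hp hq hpq => by
      refine ⟨convex_Icc _ _ hs.1 ht.1 hp hq hpq, ?_⟩
      have h := hK.1 hs.2 ht.2 hp hq hpq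
      show x - (p • s + q • t) • u₁ ∈ K
      convert h using 1
      rw [smul_sub, smul_sub, smul_smul, smul_smul, add_smul, sub_add_sub_comm, ← add_smul p q x,
        hpq, one_smul]
      rfl
    have hI := eq_Icc_of_connected_compact (hTconv.isConnected hTn) hTc
    set α := sInf T
    set β := sSup T
    have hαβ : α ≤ β := nonempty_Icc.1 (hI ▸ hTn)
    have himg : {y | ∃ s ∈ T, y - s • u₂ ∈ L} = (α • u₂) +ᵥ addSeg L ((β - α) • u₂) := by
      rw [hI]
      ext y
      simp only [mem_ofPred_eq, mem_Icc, mem_vadd_set, mem_addSeg, vadd_eq_add]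
      constructor
      · rintro ⟨s, ⟨h1, h2⟩, hy⟩
        rcases hαβ.eq_or_lt with he | hlt
        · have : s = α := by linarith
          subst this
          exact ⟨y - α • u₂, ⟨_, hy, 0, by simp, by simp⟩, by abel⟩
        · refine ⟨y - α • u₂, ⟨_, hy, (s - α) / (β - α), ⟨div_nonneg (by linarith) (by linarith),
            (div_le_one (by linarith)).2 (by linarith)⟩, ?_⟩, by abel⟩
          rw [smul_smul, div_mul_cancel₀ _ (by linarith : (β - α) ≠ 0), sub_smul]; abel
      · rintro ⟨w, ⟨l, hl, θ, hθ, rfl⟩, rfl⟩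
        refine ⟨α + θ * (β - α), ⟨by nlinarith [hθ.1], by nlinarith [hθ.2]⟩, ?_⟩
        convert hl using 1
        rw [smul_smul, add_smul]; abel
    have hB := isCompact_addSeg hL.2.1 ((β - α) • u₂)
    rw [hsl, himg, measure_vadd, indicator_of_mem hx, ← ENNReal.ofReal_toReal hB.measure_lt_top.ne,
      volume_addSeg' hb bL, projVol_smul, abs_of_nonneg (sub_nonneg.2 hαβ), hI, Real.volume_Icc,
      ENNReal.ofReal_add ENNReal.toReal_nonneg
        (mul_nonneg (sub_nonneg.2 hαβ) (projVol_nonneg _ _)),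
      ENNReal.ofReal_toReal hL.2.1.measure_lt_top.ne, ENNReal.ofReal_mul (sub_nonneg.2 hαβ),
      mul_comm]
  have hvol : volume (addSeg (K ×ˢ L) (u₁, u₂)) =
      volume (addSeg K u₁) * volume L + ENNReal.ofReal (projVol L u₂) * volume K := by
    rw [Measure.volume_eq_prod, Measure.prod_apply hA.measurableSet]
    simp only [hslice]
    rw [lintegral_add_left (measurable_const.indicator (isCompact_addSeg hK.2.1 u₁).measurableSet),
      lintegral_indicator_const (isCompact_addSeg hK.2.1 u₁).measurableSet,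
      lintegral_const_mul _ (measurable_measure_prodMk_left hTm), hTint, mul_comm (volume L)]
  have hfinA : volume (addSeg K u₁) ≠ ∞ := (isCompact_addSeg hK.2.1 u₁).measure_lt_top.ne
  rw [hvol, ENNReal.toReal_add (ENNReal.mul_ne_top hfinA hL.2.1.measure_lt_top.ne)
    (ENNReal.mul_ne_top ENNReal.ofReal_ne_top hK.2.1.measure_lt_top.ne), ENNReal.toReal_mul,
    ENNReal.toReal_mul, ENNReal.toReal_ofReal (projVol_nonneg _ _), volume_addSeg' ha bK] at h1
  have hv := vol_prodSet hK.2.1 hL.2.1
  simp only [vol] at hv ⊢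
  rw [hv] at h1
  linarith

/-- `R(K × L) ≥ R(K) R(L)`. -/
theorem prod_bound (ha : 1 ≤ a) (hb : 1 ≤ b) {K : Set (E a)} {L : Set (E b)}
    (hK : IsConvexBody K) (hL : IsConvexBody L) {c c' : ℝ} (hc0 : 0 ≤ c) (hc0' : 0 ≤ c')
    (hc : c * vol K ^ (a - 1) ≤ vol (projectionBody K))
    (hc' : c' * vol L ^ (b - 1) ≤ vol (projectionBody L)) :
    c * c' * vol (prodSet K L) ^ (a + b - 1) ≤ vol (projectionBody (prodSet K L)) := by
  have hP := prodSet_isConvexBody hK hL
  have hPK := (statement_bound ha hK).1.2.1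
  have hPL := (statement_bound hb hL).1.2.1
  have hPP := (statement_bound (Nat.le_add_right_of_le ha) hP).1.2.1
  have hVK : 0 ≤ vol K := ENNReal.toReal_nonneg
  have hVL : 0 ≤ vol L := ENNReal.toReal_nonneg
  set Q := (vol L • projectionBody K) ×ˢ (vol K • projectionBody L) with hQ
  have hsub : (appendL a b).symm ⁻¹' Q ⊆ projectionBody (prodSet K L) := by
    intro z hz
    obtain ⟨⟨k, hk, ek⟩, l, hl, el⟩ := hz
    have hzz : z = appendL a b (vol L • k, vol K • l) := by
      apply (appendL a b).symm.injective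
      rw [ContinuousLinearEquiv.symm_apply_apply]
      exact Prod.ext ek.symm el.symm
    intro u
    obtain ⟨⟨u₁, u₂⟩, rfl⟩ := (appendL a b).surjective u
    rw [projectionBody_eq] at hk hl
    rw [projFun_eq, projVol_prodSet ha hb hK hL, hzz, inner_appendL, real_inner_smul_left,
      real_inner_smul_left]
    exact add_le_add (mul_le_mul_of_nonneg_left (hk u₁) hVL) (mul_le_mul_of_nonneg_left (hl u₂) hVK)
  have h1 : vol L ^ a * vol (projectionBody K) * (vol K ^ b * vol (projectionBody L)) ≤
      vol (projectionBody (prodSet K L)) := by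
    have := ENNReal.toReal_mono hPP.measure_lt_top.ne (measure_mono (μ := volume) hsub)
    rw [volume_preimage_symm ((hPK.smul _).prod (hPL.smul _)), Measure.volume_eq_prod,
      Measure.prod_prod, ENNReal.toReal_mul, volume_smul hVL, volume_smul hVK] at this
    exact this
  refine le_trans ?_ h1
  rw [vol_prodSet hK.2.1 hL.2.1]
  refine le_trans (le_of_eq ?_) (mul_le_mul (mul_le_mul_of_nonneg_left hc (pow_nonneg hVL a))
    (mul_le_mul_of_nonneg_left hc' (pow_nonneg hVK b))
    (mul_nonneg (pow_nonneg hVK b) (mul_nonneg hc0' (pow_nonneg hVL _)))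
    (mul_nonneg (pow_nonneg hVL a) ENNReal.toReal_nonneg))
  rw [mul_pow, show a + b - 1 = a + (b - 1) by omega, pow_add (vol L)]
  rw [show a + (b - 1) = (a - 1) + b by omega, pow_add (vol K)]
  ring

end Vale.Agent.P237
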