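import Vale.Agent.P237.Gauge

/-!
Slices of a convex body by parallel hyperplanes, sublinearity of the projection function, and a
lower bound for the volume of a body whose support function is an integral of support functions.
-/

open MeasureTheory Set Filter Topology Real
open scoped RealInnerProductSpace Pointwise ENNReal

namespace Vale.Agent.P237

variable {n m N : ℕ}

lemma addSeg_vadd {V : Type*} [AddCommGroup V] [Module ℝ V] (a : V) (K : Set V) (u : V) :
    addSeg (a +ᵥ K) u = a +ᵥ addSeg K u := by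
  ext z
  constructor
  · intro h
    obtain ⟨_, ⟨k, hk, rfl⟩, s, hs, rfl⟩ := mem_addSeg.1 h
    exact ⟨k + s • u, mem_addSeg.2 ⟨k, hk, s, hs, rfl⟩, (add_assoc _ _ _).symm⟩
  · rintro ⟨w, hw, rfl⟩
    obtain ⟨k, hk, s, hs, rfl⟩ := mem_addSeg.1 hw
    exact mem_addSeg.2 ⟨a + k, ⟨k, hk, rfl⟩, s, hs, add_assoc _ _ _⟩

lemma Body.vadd {K : Set (E N)} (hK : Body K) (a : E N) : Body (a +ᵥ K) :=
  ⟨hK.conv.vadd a, by
    have := hK.cpt.image (continuous_const_vadd a)
    rwa [image_vadd] at this⟩

lemma projVol_vadd {K : Set (E (n + 1))} (hK : Body K) (a u : E (n + 1)) :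
    projVol (a +ᵥ K) u = projVol K u := by
  have h1 := volume_addSeg (hK.vadd a) u
  have h2 := volume_addSeg hK u
  rw [addSeg_vadd, measure_vadd, measure_vadd, h2] at h1
  linarith

lemma projBody_vadd {K : Set (E (n + 1))} (hK : Body K) (a : E (n + 1)) :
    projBody (a +ᵥ K) = projBody K := by
  simp only [projBody, projVol_vadd hK]

lemma exists_cen {K : Set (E N)} (hK : Body K) (hi : (interior K).Nonempty) :
    ∃ a : E N, Cen (a +ᵥ K) := by
  obtain ⟨x, hx⟩ := hi
  refine ⟨-x, hK.vadd _, ?_⟩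
  rw [interior_vadd]
  exact ⟨x, hx, neg_add_cancel x⟩

lemma Body.interior_of_pos {K : Set (E N)} (hK : Body K) (hv : volume K ≠ 0) :
    (interior K).Nonempty := by
  by_contra h
  rw [not_nonempty_iff_eq_empty] at h
  refine hv (le_antisymm ?_ bot_le)
  calc volume K ≤ volume (frontier K) := measure_mono (by
        rw [frontier, h, sdiff_empty]; exact subset_closure)
    _ = 0 := hK.conv.addHaar_frontier volume

lemma projVol_add_le {K : Set (E (n + 1))} (hK : Cen K) (u v : E (n + 1)) :
    projVol K (u + v) ≤ projVol K u + projVol K v := by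
  have h1 := J_abs hK (u + v)
  have h2 := J_abs hK u
  have h3 := J_abs hK v
  have hi := hK.integrable_comp (phi := fun w => |⟪w, u⟫|) (by fun_prop)
  have hj := hK.integrable_comp (phi := fun w => |⟪w, v⟫|) (by fun_prop)
  have key : J K (fun w => |⟪w, u + v⟫|) ≤ J K (fun w => |⟪w, u⟫|) + J K (fun w => |⟪w, v⟫|) := by
    simp only [J, ← add_div, ← integral_add hi hj]
    refine div_le_div_of_nonneg_right (integral_mono
      (hK.integrable_comp (phi := fun w => |⟪w, u + v⟫|) (by fun_prop)) (hi.add hj) fun x => ?_)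
      (by positivity)
    simp only [← mul_add, inner_add_right]
    exact mul_le_mul_of_nonneg_left (abs_add_le _ _) (exp_pos _).le
  linarith

lemma projVol_bound {K : Set (E (n + 1))} (hK : Body K) :
    ∃ B, 0 ≤ B ∧ ∀ u, projVol K u ≤ B * ‖u‖ := by
  obtain ⟨r, hr⟩ := hK.cpt.isBounded.subset_closedBall (0 : E (n + 1))
  refine ⟨(volume (Metric.closedBall (0 : E n) r)).toReal, ENNReal.toReal_nonneg, fun u => ?_⟩
  rcases eq_or_ne u 0 with rfl | hu
  · simp [projVol_zero]
  obtain ⟨F⟩ := exists_frame (ν := ‖u‖⁻¹ • u) (norm_smul_inv_norm hu)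
  have hu' : u = ‖u‖ • (‖u‖⁻¹ • u) := by
    rw [smul_smul, mul_inv_cancel₀ (norm_ne_zero_iff.2 hu), one_smul]
  conv_lhs => rw [hu', F.projVol_eq, abs_of_nonneg (norm_nonneg u)]
  rw [mul_comm]
  refine mul_le_mul_of_nonneg_right (ENNReal.toReal_mono
    (isCompact_closedBall _ _).measure_lt_top.ne (measure_mono ?_)) (norm_nonneg _)
  rintro _ ⟨z, hz, rfl⟩
  have h1 := mem_closedBall_zero_iff.1 (hr hz)
  rw [mem_closedBall_zero_iff]
  refine le_trans ?_ h1
  have h2 := F.inn (F.S.symm z).1 (F.proj z) (F.S.symm z).1 (F.proj z)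
  simp only [Frame.proj, Prod.mk.eta, F.S.apply_symm_apply, real_inner_self_eq_norm_sq] at h2
  show ‖(F.S.symm z).2‖ ≤ _
  nlinarith [norm_nonneg z, norm_nonneg (F.S.symm z).2, sq_nonneg (F.S.symm z).1]

lemma continuous_projVol {K : Set (E (n + 1))} (hK : Body K) (hi : (interior K).Nonempty) :
    Continuous (projVol K) := by
  obtain ⟨a, ha⟩ := exists_cen hK hi
  obtain ⟨B, hB0, hB⟩ := projVol_bound ha.toBody
  have e : projVol K = projVol (a +ᵥ K) := funext fun u => (projVol_vadd hK a u).symm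
  rw [e]
  refine (LipschitzWith.of_le_add_mul ⟨B, hB0⟩ fun u v => ?_).continuous
  have h1 := projVol_add_le ha v (u - v)
  rw [add_sub_cancel] at h1
  rw [dist_eq_norm]
  exact h1.trans (add_le_add le_rfl (hB _))

lemma projVol_lower {K : Set (E (n + 1))} (hK : Body K) (hi : (interior K).Nonempty) :
    ∃ c, 0 < c ∧ ∀ u, c * ‖u‖ ≤ projVol K u := by
  obtain ⟨a, ha⟩ := exists_cen hK hi
  obtain ⟨r, hr, hball⟩ := Metric.isOpen_iff.1 isOpen_interior 0 ha.int
  refine ⟨(volume (Metric.ball (0 : E n) r)).toReal,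
    ENNReal.toReal_pos (Metric.measure_ball_pos _ _ hr).ne' measure_ball_lt_top.ne, fun u => ?_⟩
  rw [← projVol_vadd hK a u]
  rcases eq_or_ne u 0 with rfl | hu
  · simp [projVol_zero]
  obtain ⟨F⟩ := exists_frame (ν := ‖u‖⁻¹ • u) (norm_smul_inv_norm hu)
  have hu' : u = ‖u‖ • (‖u‖⁻¹ • u) := by
    rw [smul_smul, mul_inv_cancel₀ (norm_ne_zero_iff.2 hu), one_smul]
  conv_rhs => rw [hu', F.projVol_eq, abs_of_nonneg (norm_nonneg u)]
  rw [mul_comm]
  refine mul_le_mul_of_nonneg_left (ENNReal.toReal_mono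
    (ha.cpt.image F.continuous_proj).measure_lt_top.ne (measure_mono fun y hy => ?_)) (norm_nonneg _)
  refine ⟨F.S (0, y), interior_subset (hball ?_), F.proj_S _ _⟩
  rw [mem_ball_zero_iff, F.norm_hyper]
  exact mem_ball_zero_iff.1 hy

/-- The body whose support function is dominated by `p`. -/
def wulff (p : E N → ℝ) : Set (E N) := {y | ∀ v, ⟪y, v⟫ ≤ p v}

/-- A positive sublinear function. -/
structure Sublin (p : E N → ℝ) : Prop where
  add : ∀ u v, p (u + v) ≤ p u + p v
  smul : ∀ c : ℝ, 0 < c → ∀ u, p (c • u) = c * p u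
  lower : ∃ c, 0 < c ∧ ∀ u, c * ‖u‖ ≤ p u
  upper : ∃ B, 0 ≤ B ∧ ∀ u, p u ≤ B * ‖u‖

namespace Sublin

variable {p : E N → ℝ} (hp : Sublin p)
include hp

lemma continuous : Continuous p := by
  obtain ⟨B, hB0, hB⟩ := hp.upper
  refine (LipschitzWith.of_le_add_mul ⟨B, hB0⟩ fun u v => ?_).continuous
  have h1 := hp.add v (u - v)
  rw [add_sub_cancel] at h1
  rw [dist_eq_norm]
  exact h1.trans (add_le_add le_rfl (hB _))

lemma cen : Cen (wulff p) := by
  obtain ⟨c, hc, hlo⟩ := hp.lower
  obtain ⟨B, hB0, hB⟩ := hp.upper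
  have hclosed : IsClosed (wulff p) := by
    simp only [wulff, ofPred_forall]
    exact isClosed_iInter fun v => isClosed_le (by fun_prop) continuous_const
  refine ⟨⟨?_, ?_⟩, ?_⟩
  · intro x hx y hy a b ha hb hab v
    rw [inner_add_left, real_inner_smul_left, real_inner_smul_left]
    calc a * ⟪x, v⟫ + b * ⟪y, v⟫ ≤ a * p v + b * p v :=
          add_le_add (mul_le_mul_of_nonneg_left (hx v) ha) (mul_le_mul_of_nonneg_left (hy v) hb)
      _ = p v := by rw [← add_mul, hab, one_mul]
  · refine (isCompact_closedBall (0 : E N) B).of_isClosed_subset hclosed fun y hy => ?_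
    rw [mem_closedBall_zero_iff]
    have h := (hy y).trans (hB y)
    rw [real_inner_self_eq_norm_sq] at h
    nlinarith [norm_nonneg y]
  · refine mem_interior.2 ⟨Metric.ball 0 c, fun y hy v => ?_, Metric.isOpen_ball,
      Metric.mem_ball_self hc⟩
    refine ((real_inner_le_norm y v).trans ?_).trans (hlo v)
    exact mul_le_mul_of_nonneg_right (mem_ball_zero_iff.1 hy).le (norm_nonneg _)

lemma zero : p 0 = 0 := by
  have := hp.smul 2 two_pos 0
  rw [smul_zero] at this
  linarith

lemma exists_support (v : E N) : ∃ y ∈ wulff p, ⟪y, v⟫ = p v := by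
  rcases eq_or_ne v 0 with rfl | hv
  · exact ⟨0, interior_subset hp.cen.int, by rw [inner_zero_left, hp.zero]⟩
  let f : E N →ₗ.[ℝ] ℝ := LinearPMap.mkSpanSingleton v (p v) hv
  have hf : ∀ x : f.domain, f x ≤ p x := by
    rintro ⟨x, hx⟩
    obtain ⟨c, rfl⟩ := Submodule.mem_span_singleton.1 hx
    rw [show f ⟨c • v, hx⟩ = c • p v from LinearPMap.mkSpanSingleton'_apply _ _ _ _ _, smul_eq_mul]
    rcases lt_trichotomy c 0 with hc | hc | hc
    · have h1 := hp.add (c • v) ((-c) • v)
      rw [← add_smul, add_neg_cancel, zero_smul, hp.zero, hp.smul _ (neg_pos.2 hc)] at h1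
      show c * p v ≤ p (c • v)
      linarith
    · simp [hc, hp.zero]
    · exact (hp.smul c hc v).ge
  obtain ⟨g, hg1, hg2⟩ := exists_extension_of_le_sublinear f p hp.smul hp.add hf
  refine ⟨(InnerProductSpace.toDual ℝ (E N)).symm g.toContinuousLinearMap, fun u => ?_, ?_⟩
  · rw [InnerProductSpace.toDual_symm_apply]
    exact hg2 u
  · rw [InnerProductSpace.toDual_symm_apply]
    show g v = p v
    rw [hg1 ⟨v, Submodule.mem_span_singleton_self v⟩]
    exact LinearPMap.mkSpanSingleton'_apply_self _ _ _ _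

lemma gr_le_one (x : E N) : p (gr (wulff p) x) ≤ 1 := by
  obtain ⟨y, hy, e⟩ := hp.exists_support (gr (wulff p) x)
  rw [← e, real_inner_comm]
  exact hp.cen.gr_le_one x hy

end Sublin

/-- A support function which is an integral of support functions gives a body at least as large as
the integral in the sense of Brunn-Minkowski. -/
theorem volume_wulff {p : E (m + 1) → ℝ} (hp : Sublin p) {q : ℝ → E (m + 1) → ℝ}
    (hq : Measurable (Function.uncurry q)) (hq0 : ∀ t v, 0 ≤ q t v)
    (hqi : ∀ v, Integrable fun t => q t v) (hpq : ∀ v, ∫ t, q t v ≤ p v)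
    {b : ℝ → ℝ} (hb : Integrable b) (hb0 : ∀ t, 0 ≤ b t)
    (hL : ∀ t, 0 < b t → Continuous (q t) ∧ IsCompact (wulff (q t)) ∧
      b t ^ (m + 1) ≤ (volume (wulff (q t))).toReal) :
    (∫ t, b t) ^ (m + 1) ≤ (volume (wulff p)).toReal := by
  set W := wulff p
  have hW : Cen W := hp.cen
  set V := (volume W).toReal with hV
  have hV0 : 0 < V := ENNReal.toReal_pos
    ((Measure.measure_pos_of_mem_nhds volume hW.nhds_zero).ne') hW.cpt.measure_lt_top.ne
  set a := V ^ ((1 : ℝ) / (m + 1)) with ha
  have ha0 : 0 < a := Real.rpow_pos_of_pos hV0 _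
  have haV : a ^ (m + 1) = V := by
    rw [ha, ← Real.rpow_natCast, ← Real.rpow_mul hV0.le]
    push_cast
    rw [one_div_mul_cancel (by positivity), Real.rpow_one]
  set g := fun x => exp (-gauge W x) with hg
  have hgm : Measurable g := hW.continuous_g.neg.rexp.measurable
  set k := ((m + 1 : ℝ) * a ^ m) * Nat.factorial m with hk
  have step : ∀ t, ENNReal.ofReal (k * b t) ≤ ∫⁻ x, ENNReal.ofReal (g x * q t (gr W x)) := by
    intro t
    rcases (hb0 t).eq_or_lt with h | h
    · simp [← h]
    obtain ⟨hc, hcpt, hvol⟩ := hL t h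
    have hne : (wulff (q t)).Nonempty := ⟨0, fun v => by simpa using hq0 t v⟩
    have h1 := mink hW hcpt hne hc
      (fun l hl v => (real_inner_comm l v).symm ▸ hl v) ha0.le h.le haV hvol
    rw [J, le_div_iff₀ (by positivity)] at h1
    rw [← ofReal_integral_eq_lintegral_ofReal (hW.integrable_comp hc)
      (Eventually.of_forall fun x => mul_nonneg (exp_pos _).le (hq0 _ _))]
    refine ENNReal.ofReal_le_ofReal (le_trans (le_of_eq ?_) h1)
    rw [hk]; ring
  have hjoint : Measurable fun z : ℝ × E (m + 1) => ENNReal.ofReal (g z.2 * q z.1 (gr W z.2)) :=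
    ((hgm.comp measurable_snd).mul
      (hq.comp (measurable_fst.prodMk ((measurable_gr W).comp measurable_snd)))).ennreal_ofReal
  have h2 : ENNReal.ofReal (k * ∫ t, b t) ≤ ENNReal.ofReal ((m + 1).factorial * V) := by
    calc ENNReal.ofReal (k * ∫ t, b t) = ∫⁻ t, ENNReal.ofReal (k * b t) := by
          rw [← integral_const_mul, ofReal_integral_eq_lintegral_ofReal (hb.const_mul k)
            (Eventually.of_forall fun t => mul_nonneg (by positivity) (hb0 t))]
      _ ≤ ∫⁻ t, ∫⁻ x, ENNReal.ofReal (g x * q t (gr W x)) := lintegral_mono step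
      _ = ∫⁻ x, ∫⁻ t, ENNReal.ofReal (g x * q t (gr W x)) :=
          lintegral_lintegral_swap hjoint.aemeasurable
      _ ≤ ∫⁻ x, ENNReal.ofReal (g x) := by
          refine lintegral_mono fun x => ?_
          rw [← ofReal_integral_eq_lintegral_ofReal ((hqi _).const_mul _)
            (Eventually.of_forall fun t => mul_nonneg (exp_pos _).le (hq0 _ _)), integral_const_mul]
          exact ENNReal.ofReal_le_ofReal (mul_le_of_le_one_right (exp_pos _).le
            ((hpq _).trans (hp.gr_le_one x)))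
      _ = _ := hW.lintegral_exp
  rw [ENNReal.ofReal_le_ofReal_iff (by positivity)] at h2
  have h3 : ∫ t, b t ≤ a := by
    refine le_of_mul_le_mul_left (h2.trans (le_of_eq ?_)) (by positivity : 0 < k)
    rw [hk, Nat.factorial_succ, ← haV]
    push_cast
    ring
  calc (∫ t, b t) ^ (m + 1) ≤ a ^ (m + 1) := pow_le_pow_left₀ (integral_nonneg hb0) h3 _
    _ = V := haV

namespace Frame

variable {ν : E (n + 1)} (F : Frame ν) {K : Set (E (n + 1))}

/-- The slice at height `t`. -/
def slice (K : Set (E (n + 1))) (t : ℝ) : Set (E n) := {y | F.S (t, y) ∈ K}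

lemma slice_body (hK : Body K) (t : ℝ) : Body (F.slice K t) := by
  refine ⟨fun x hx y hy a b ha hb hab => ?_, (hK.cpt.image F.continuous_proj).of_isClosed_subset
    (hK.cpt.isClosed.preimage (F.S.continuous.comp (continuous_const.prodMk continuous_id)))
    fun y hy => ⟨_, hy, F.proj_S t y⟩⟩
  have h := hK.conv hx hy ha hb hab
  rw [← map_smul, ← map_smul, ← map_add, Prod.smul_mk, Prod.smul_mk, Prod.mk_add_mk, ← add_smul,
    hab, one_smul] at h
  exact h

lemma volume_slices (A : Set (E (n + 1))) (hA : IsCompact A) :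
    Integrable (fun t => (volume (F.slice A t)).toReal) ∧
      ∫ t, (volume (F.slice A t)).toReal = (volume A).toReal := by
  have hAm := hA.measurableSet.preimage F.S.continuous.measurable
  have h1 : volume A = ∫⁻ t, volume (F.slice A t) := by
    rw [← F.mp.measure_preimage hA.measurableSet.nullMeasurableSet, Measure.volume_eq_prod,
      Measure.prod_apply hAm]
    rfl
  have hm : Measurable fun t => volume (F.slice A t) := measurable_measure_prodMk_left hAm
  have hfin : ∀ t, volume (F.slice A t) < ∞ := fun t =>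
    lt_of_le_of_lt (measure_mono (t := F.proj '' A) fun y (hy : F.S (t, y) ∈ A) => ⟨_, hy, F.proj_S t y⟩)
      (hA.image F.continuous_proj).measure_lt_top
  refine ⟨integrable_toReal_of_lintegral_ne_top hm.aemeasurable (h1 ▸ hA.measure_lt_top.ne), ?_⟩
  rw [integral_toReal hm.aemeasurable (Eventually.of_forall hfin), ← h1]

lemma slice_addSeg (K : Set (E (n + 1))) (v : E n) (t : ℝ) :
    F.slice (addSeg K (F.S (0, v))) t = addSeg (F.slice K t) v := by
  ext y
  simp only [slice, mem_ofPred_eq, mem_addSeg]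
  constructor
  · rintro ⟨k, hk, s, hs, e⟩
    refine ⟨y - s • v, ?_, s, hs, sub_add_cancel _ _⟩
    have : k = F.S (t, y) - s • F.S (0, v) := by rw [← e]; abel
    rw [this, ← map_smul, ← map_sub] at hk
    simpa using hk
  · rintro ⟨y', hy', s, hs, rfl⟩
    exact ⟨_, hy', s, hs, by rw [← map_smul, ← map_add]; simp⟩

end Frame

lemma measurable_slice_projVol {ν : E (m + 2)} (F : Frame ν) {K : Set (E (m + 2))} (hK : Body K) :
    Measurable (Function.uncurry fun t v => projVol (F.slice K t) v) := by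
  set C : Set (((ℝ × E (m + 1)) × E (m + 1)) × Icc (0 : ℝ) 1) :=
    {q | F.S (q.1.1.1, q.1.2 - (q.2 : ℝ) • q.1.1.2) ∈ K} with hC
  have hCc : IsClosed C := hK.cpt.isClosed.preimage (F.S.continuous.comp (by fun_prop))
  have hD : MeasurableSet (Prod.fst '' C) := (isClosedMap_fst_of_compactSpace _ hCc).measurableSet
  have hsl : ∀ z : ℝ × E (m + 1), Prod.mk z ⁻¹' (Prod.fst '' C) = addSeg (F.slice K z.1) z.2 := by
    intro z
    ext y
    simp only [mem_preimage, mem_image, mem_addSeg]
    constructor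
    · rintro ⟨⟨w, s⟩, hs, e⟩
      cases e
      exact ⟨y - (s : ℝ) • z.2, hs, s, s.2, sub_add_cancel _ _⟩
    · rintro ⟨k, hk, s, hs, rfl⟩
      refine ⟨((z, k + s • z.2), ⟨s, hs⟩), ?_, rfl⟩
      show F.S (z.1, k + s • z.2 - s • z.2) ∈ K
      rwa [add_sub_cancel_right]
  have h1 : Measurable fun z : ℝ × E (m + 1) => (volume (addSeg (F.slice K z.1) z.2)).toReal := by
    simp only [← hsl]
    exact (measurable_measure_prodMk_left hD).ennreal_toReal
  have h2 : Measurable fun z : ℝ × E (m + 1) => (volume (F.slice K z.1)).toReal := by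
    have hm : Measurable fun z : ℝ × E (m + 1) => (z.1, (0 : E (m + 1))) :=
      measurable_fst.prodMk measurable_const
    have h3 := h1.comp hm
    simpa [Function.comp_def, addSeg_zero] using h3
  convert h1.sub h2 using 1
  funext z
  simp [Function.uncurry, volume_addSeg (F.slice_body hK z.1)]

lemma projVol_slices {ν : E (m + 2)} (F : Frame ν) {K : Set (E (m + 2))} (hK : Body K)
    (v : E (m + 1)) :
    Integrable (fun t => projVol (F.slice K t) v) ∧
      ∫ t, projVol (F.slice K t) v = projVol K (F.S (0, v)) := by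
  obtain ⟨h1, e1⟩ := F.volume_slices K hK.cpt
  obtain ⟨h2, e2⟩ := F.volume_slices _ (isCompact_addSeg hK.cpt (F.S (0, v)))
  have e : (fun t => projVol (F.slice K t) v) = fun t =>
      (volume (F.slice (addSeg K (F.S (0, v))) t)).toReal - (volume (F.slice K t)).toReal := by
    funext t
    rw [F.slice_addSeg, volume_addSeg (F.slice_body hK t)]
    ring
  rw [e]
  exact ⟨h2.sub h1, by rw [integral_sub h2 h1, e1, e2, volume_addSeg hK]; ring⟩

end Vale.Agent.P237
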