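import Vale.Agent.P237.Slice

/-!
A lower bound for the volume of a zonotope by the volumes of its projections along its generators.
-/

open MeasureTheory Set Filter Topology
open scoped RealInnerProductSpace Pointwise

namespace Vale.Agent.P237

variable {n k : ℕ}

lemma projVol_mono {N : ℕ} {K L : Set (E N)} (hL : IsCompact L) (h : K ⊆ L) (u : E N) :
    projVol K u ≤ projVol L u :=
  mul_le_mul_of_nonneg_left (ENNReal.toReal_mono
    (hL.image ((ℝ ∙ u)ᗮ.orthogonalProjectionOnto).continuous).measure_lt_top.ne
    (measure_mono (image_mono h))) (norm_nonneg _)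

/-- The zonotope `{∑ cᵢ vᵢ : 0 ≤ c ≤ a}`. -/
def zono {N : ℕ} (v : Fin k → E N) (a : Fin k → ℝ) : Set (E N) :=
  (fun c : Fin k → ℝ => ∑ i, c i • v i) '' Icc 0 a

lemma zono_body {N : ℕ} (v : Fin k → E N) (a : Fin k → ℝ) : Body (zono v a) := by
  refine ⟨?_, isCompact_Icc.image (continuous_finsetSum _ fun i _ =>
    (continuous_apply i).smul continuous_const)⟩
  rintro _ ⟨c, hc, rfl⟩ _ ⟨e, he, rfl⟩ p q hp hq hpq
  refine ⟨p • c + q • e, (convex_Icc _ _) hc he hp hq hpq, ?_⟩
  simp [Finset.smul_sum, ← Finset.sum_add_distrib, add_smul, smul_smul]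

lemma zono_mono {N : ℕ} (v : Fin k → E N) {a b : Fin k → ℝ} (h : a ≤ b) :
    zono v a ⊆ zono v b :=
  image_mono (Icc_subset_Icc_right h)

lemma smul_zono_subset {N : ℕ} (v : Fin k → E N) {r : ℝ} (hr : 0 ≤ r) :
    r • zono v 1 ⊆ zono v (fun _ => r) := by
  rintro _ ⟨_, ⟨c, hc, rfl⟩, rfl⟩
  refine ⟨r • c, ⟨fun i => mul_nonneg hr (hc.1 i), fun i => ?_⟩, ?_⟩
  · have := mul_le_mul_of_nonneg_left (hc.2 i) hr
    simpa using this
  · simp [Finset.smul_sum, smul_smul]

lemma addSeg_zono {N : ℕ} (v : Fin k → E N) (a : Fin k → ℝ) (i : Fin k) {s : ℝ} (hs : 0 ≤ s) :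
    addSeg (zono v a) (s • v i) ⊆ zono v (Function.update a i (a i + s)) := by
  intro z hz
  obtain ⟨_, ⟨c, hc, rfl⟩, θ, hθ, rfl⟩ := mem_addSeg.1 hz
  refine ⟨Function.update c i (c i + θ * s), ⟨fun j => ?_, fun j => ?_⟩, ?_⟩
  · rcases eq_or_ne j i with rfl | hj
    · rw [Function.update_self]; exact add_nonneg (hc.1 j) (mul_nonneg hθ.1 hs)
    · rw [Function.update_of_ne hj]; exact hc.1 j
  · rcases eq_or_ne j i with rfl | hj
    · rw [Function.update_self, Function.update_self]
      exact add_le_add (hc.2 j) (mul_le_of_le_one_left hs hθ.2)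
    · rw [Function.update_of_ne hj, Function.update_of_ne hj]; exact hc.2 j
  · show ∑ j, Function.update c i (c i + θ * s) j • v j = ∑ j, c j • v j + θ • s • v i
    classical
    rw [← Finset.add_sum_erase _ _ (Finset.mem_univ i),
      ← Finset.add_sum_erase (f := fun j => c j • v j) _ (Finset.mem_univ i), Function.update_self,
      Finset.sum_congr rfl fun j hj => by rw [Function.update_of_ne (Finset.ne_of_mem_erase hj)],
      add_smul, smul_smul]
    abel

/-- `|Z| ≥ (1/(n+1)) ∑ ‖vᵢ‖ |proj_{vᵢ^⊥} Z|`. -/
theorem volume_zono (hn : n ≠ 0) (v : Fin k → E (n + 1)) :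
    (∑ i, projVol (zono v 1) (v i)) / (n + 1) ≤ (volume (zono v 1)).toReal := by
  set P := ∑ i, projVol (zono v 1) (v i) with hP
  have hP0 : 0 ≤ P := Finset.sum_nonneg fun i _ => projVol_nonneg _ _
  set Vol := fun a => (volume (zono v a)).toReal with hVol
  have key : ∀ M : ℕ, 0 < M → (((M : ℝ) - 1) / M) ^ (n + 1) * (P / (n + 1)) ≤ Vol 1 := by
    intro M hM
    have hM' : (0 : ℝ) < M := by exact_mod_cast hM
    have round : ∀ m : ℕ, m < M → Vol (fun _ => (m : ℝ) / M) + 1 / M * ((m : ℝ) / M) ^ n * P ≤
        Vol (fun _ => ((m : ℝ) + 1) / M) := by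
      intro m _
      set a : ℕ → Fin k → ℝ := fun j i => if i.val < j then ((m : ℝ) + 1) / M else (m : ℝ) / M
      have hpart : ∀ j ≤ k, Vol (fun _ => (m : ℝ) / M) + 1 / M * ((m : ℝ) / M) ^ n *
          ∑ i ∈ Finset.univ.filter (fun i : Fin k => i.val < j), projVol (zono v 1) (v i) ≤
            Vol (a j) := by
        intro j hj
        induction j with
        | zero => simp [a]
        | succ j ih =>
          set i : Fin k := ⟨j, by omega⟩ with hi
          have e1 : Finset.univ.filter (fun l : Fin k => l.val < j + 1) =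
              insert i (Finset.univ.filter fun l : Fin k => l.val < j) := by
            ext l; simp [hi, Fin.ext_iff]; omega
          rw [e1, Finset.sum_insert (by simp [hi]), mul_add, add_left_comm]
          have e2 : a (j + 1) = Function.update (a j) i (a j i + 1 / M) := by
            funext l
            rcases eq_or_ne l i with rfl | hl
            · simp [a, hi]; ring
            · rw [Function.update_of_ne hl]
              have : l.val ≠ j := fun h => hl (Fin.ext h)
              simp only [a]
              split_ifs <;> first | rfl | omega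
          have h1 : (volume (addSeg (zono v (a j)) ((1 / M : ℝ) • v i))).toReal ≤ Vol (a (j + 1)) := by
            rw [e2]
            exact ENNReal.toReal_mono (zono_body v _).cpt.measure_lt_top.ne
              (measure_mono (addSeg_zono v _ i (by positivity)))
          rw [volume_addSeg (zono_body v _), projVol_smul, abs_of_nonneg (by positivity)] at h1
          have h2 : ((m : ℝ) / M) ^ n * projVol (zono v 1) (v i) ≤ projVol (zono v (a j)) (v i) := by
            rcases Nat.eq_zero_or_pos m with rfl | hm
            · simp [zero_pow hn, projVol_nonneg]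
            · rw [← projVol_smul_set (zono_body v 1) (by positivity)]
              refine projVol_mono (zono_body v _).cpt ((smul_zono_subset v (by positivity)).trans
                (zono_mono v fun l => ?_)) _
              simp only [a]
              split_ifs
              · exact div_le_div_of_nonneg_right (by linarith) hM'.le
              · exact le_rfl
          have h3 := ih (by omega)
          have h4 := mul_le_mul_of_nonneg_left h2 (by positivity : (0 : ℝ) ≤ 1 / M)
          simp only [Vol] at h1 h3 ⊢
          linarith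
      have h := hpart k le_rfl
      rw [Finset.filter_true_of_mem fun i _ => i.2] at h
      convert h using 2
      funext i
      simp [a]
    have htel : ∀ m ≤ M, ((m : ℝ) - 1) ^ (n + 1) * (P / (n + 1)) / (M : ℝ) ^ (n + 1) ≤
        Vol (fun _ => (m : ℝ) / M) ∨ m = 0 := by
      intro m hm
      induction m with
      | zero => exact Or.inr rfl
      | succ m ih =>
        left
        push_cast
        rw [add_sub_cancel_right]
        have h1 := round m (by omega)
        have h2 : (m : ℝ) ^ (n + 1) * (P / (n + 1)) ≤
            max ((m : ℝ) - 1) 0 ^ (n + 1) * (P / (n + 1)) + (m : ℝ) ^ n * P := by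
          rcases Nat.eq_zero_or_pos m with rfl | hm0
          · simp; positivity
          · have hm1 : (1 : ℝ) ≤ m := by exact_mod_cast hm0
            rw [max_eq_left (by linarith)]
            have hb : (m : ℝ) ^ (n + 1) ≤ ((m : ℝ) - 1) ^ (n + 1) + (n + 1) * (m : ℝ) ^ n := by
              have h5 := abs_pow_sub_pow_le (m : ℝ) ((m : ℝ) - 1) (n + 1)
              rw [sub_sub_cancel, abs_one, one_mul, Nat.add_sub_cancel, abs_of_nonneg (by linarith : (0:ℝ) ≤ m),
                abs_of_nonneg (by linarith : (0:ℝ) ≤ (m : ℝ) - 1), max_eq_left (by linarith)] at h5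
              have h6 := le_abs_self ((m : ℝ) ^ (n + 1) - ((m : ℝ) - 1) ^ (n + 1))
              push_cast at h5
              linarith
            calc (m : ℝ) ^ (n + 1) * (P / (n + 1))
                ≤ (((m : ℝ) - 1) ^ (n + 1) + (n + 1) * (m : ℝ) ^ n) * (P / (n + 1)) :=
                  mul_le_mul_of_nonneg_right hb (by positivity)
              _ = _ := by field_simp
        have h3 : max ((m : ℝ) - 1) 0 ^ (n + 1) * (P / (n + 1)) / (M : ℝ) ^ (n + 1) ≤
            Vol (fun _ => (m : ℝ) / M) := by
          rcases Nat.eq_zero_or_pos m with rfl | hm0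
          · simp [Vol, zero_pow (Nat.succ_ne_zero n)]
          · rw [max_eq_left (by have : (1 : ℝ) ≤ m := by exact_mod_cast hm0
                                linarith)]
            rcases ih (by omega) with h | h
            · exact h
            · omega
        have h4 : (m : ℝ) ^ (n + 1) * (P / (n + 1)) / (M : ℝ) ^ (n + 1) ≤
            max ((m : ℝ) - 1) 0 ^ (n + 1) * (P / (n + 1)) / (M : ℝ) ^ (n + 1) +
              1 / M * ((m : ℝ) / M) ^ n * P := by
          refine (div_le_div_of_nonneg_right h2 (by positivity)).trans (le_of_eq ?_)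
          rw [div_pow, pow_succ (M : ℝ)]
          field_simp
        linarith
    rcases htel M le_rfl with h | h
    · rw [div_self hM'.ne'] at h
      refine le_trans (le_of_eq ?_) h
      rw [div_pow]; ring
    · omega
  have hlim : Tendsto (fun M : ℕ => (((M : ℝ) - 1) / M) ^ (n + 1) * (P / (n + 1))) atTop
      (𝓝 (P / (n + 1))) := by
    have h1 : Tendsto (fun M : ℕ => ((M : ℝ) - 1) / M) atTop (𝓝 1) := by
      have h := tendsto_one_div_atTop_nhds_zero_nat (𝕜 := ℝ)
      have h' := (tendsto_const_nhds (x := (1 : ℝ))).sub h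
      rw [sub_zero] at h'
      refine h'.congr' ?_
      filter_upwards [eventually_gt_atTop 0] with M hM
      have : (M : ℝ) ≠ 0 := by exact_mod_cast hM.ne'
      field_simp
    simpa using (h1.pow (n + 1)).mul_const (P / (n + 1))
  refine le_of_tendsto hlim ?_
  filter_upwards [eventually_gt_atTop 0] with M hM
  exact key M hM

end Vale.Agent.P237
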